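import Vale.Agent.P016Z.QLS.Level
import Vale.Agent.P016Z.QLS.ClsDefs

/-!
P016, block QLS: the Poisson step of the recursion.
-/

namespace Vale.Agent.P016Z.QLS

open Vale.Agent.P016Z.Ab
open Finset
open scoped ComplexConjugate
open scoped Classical

set_option linter.unusedSectionVars false

variable {M : Type} [CommMonoidWithZero M] [UniqueFactorizationMonoid M] [Ar M] [Rad M]

/-- the off-diagonal part of one pair -/
noncomputable def ot (χ : M → M → ℂ) (c₀ K A : ℝ) (δ a b : M) : ℂ :=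
  ∑ d ∈ D δ, ∑' v : M, dualT χ c₀ K A δ d a b v - ∑ v ∈ SqK M K, primT χ c₀ A δ a b v

theorem sum3_comm {S T U : Finset M} (f : M → M → M → ℂ) :
    ∑ k ∈ S, ∑ l ∈ T, ∑ δ ∈ U, f k l δ = ∑ δ ∈ U, ∑ k ∈ S, ∑ l ∈ T, f k l δ := by
  calc ∑ k ∈ S, ∑ l ∈ T, ∑ δ ∈ U, f k l δ = ∑ k ∈ S, ∑ δ ∈ U, ∑ l ∈ T, f k l δ :=
        sum_congr rfl fun k _ => sum_comm
    _ = _ := sum_comm

theorem sum_pair_filter {S U : Finset M} (X : M → M → M → ℂ) :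
    ∑ k ∈ S, ∑ l ∈ S, ∑ e ∈ U, (if e ∣ k ∧ e ∣ l then X e k l else 0) =
      ∑ e ∈ U, ∑ k ∈ S.filter (fun k => e ∣ k), ∑ l ∈ S.filter (fun l => e ∣ l), X e k l := by
  have h1 : ∀ k ∈ S, ∑ l ∈ S, ∑ e ∈ U, (if e ∣ k ∧ e ∣ l then X e k l else 0) =
      ∑ e ∈ U, ∑ l ∈ S, (if e ∣ k ∧ e ∣ l then X e k l else 0) := fun k _ => Finset.sum_comm
  rw [Finset.sum_congr rfl h1, Finset.sum_comm]
  refine Finset.sum_congr rfl fun e _ => ?_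
  rw [Finset.sum_filter]
  refine Finset.sum_congr rfl fun k _ => ?_
  split_ifs with h
  · rw [Finset.sum_filter]
    refine Finset.sum_congr rfl fun l _ => ?_
    simp [h]
  · exact Finset.sum_eq_zero fun l _ => by simp [h]

theorem D_eq_filter {K : ℝ} {δ a b : M} (hδ : Prim δ) (hk : δ * a ∈ SO M K)
    (hab : IsRelPrime a b) :
    D δ = (SO M K).filter (fun e => e ∣ δ * a ∧ e ∣ δ * b) := by
  ext e
  rw [mem_D hδ.ne_zero, Finset.mem_filter]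
  constructor
  · rintro ⟨h1, h2⟩
    exact ⟨mem_SO_of_dvd hk h1 (h2.mul_right a), h2.mul_right a, h2.mul_right b⟩
  · rintro ⟨h1, h3, h4⟩
    exact ⟨(mem_SO.1 h1).2.prim, dvd_of_dvd_mul_rel hδ.ne_zero hab h3 h4⟩

end Vale.Agent.P016Z.QLS

namespace Vale.Agent.P016Z.Ab.QSym

open Vale.Agent.P016Z.QLS Finset
open scoped Classical ComplexConjugate

set_option linter.unusedSectionVars false

variable {M : Type} [CommMonoidWithZero M] [UniqueFactorizationMonoid M] [Ar M] [Rad M]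

variable {χ : M → M → ℂ} (hχ : QSym χ)

include hχ

theorem big_decomp {Y A : ℝ} (hA : 0 < A) {k l : M} (hk : Sq k) (hl : Sq l)
    (hkY : (N k : ℝ) ≤ Y) (h4 : cm k = cm l) (c₀ K : ℝ) :
    ∃ z : ℂ, ‖z‖ ≤ (if k = l then (w6 M) * (A * (D k).card + 1) else 0) ∧
      big χ K A k l = z + ∑ e ∈ SO M Y, (if e ∣ k ∧ e ∣ l then
        ∑ δ ∈ D e, mob (dv e δ) * ot χ c₀ K A δ (dv k δ) (dv l δ) else 0) := by
  classical
  obtain ⟨δ, a, b, hδ, ha, hb, rfl, rfl, hab⟩ := exists_pgcd hk.prim hl.prim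
  have oδ : Sq δ := hk.of_dvd hδ (dvd_mul_right _ _)
  have oa : Sq a := hk.of_dvd ha (dvd_mul_left _ _)
  have ob : Sq b := hl.of_dvd hb (dvd_mul_left _ _)
  have hc : IsRelPrime δ (a * b) :=
    (squarefree_mul_iff.1 hk.2).1.mul_right (squarefree_mul_iff.1 hl.2).1
  have h4' : cm a = cm b := hχ.cm_cancel δ a b hδ.ne_zero ha.ne_zero hb.ne_zero h4
  refine ⟨((w6 M) : ℂ) * χ (a * b) 0 *
    (∑ d ∈ D δ, mob d * ((A / N d / Real.sqrt (N (a * b)) : ℝ) : ℂ) - cop δ 0), ?_, ?_⟩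
  · split_ifs with h
    · have hab' : a = b := mul_left_cancel₀ hδ.ne_zero h
      subst hab'
      have ha1 : a = 1 := ha.eq_one_of_isUnit (isRelPrime_self.1 hab)
      subst ha1
      rw [mul_one, mul_one, norm_mul, norm_mul, Complex.norm_real, Real.norm_of_nonneg w6_nonneg,
        mul_assoc]
      refine mul_le_mul_of_nonneg_left ?_ w6_nonneg
      refine (mul_le_of_le_one_left (norm_nonneg _) (hχ.norm_le sq_one 0)).trans ?_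
      refine (norm_sub_le _ _).trans (add_le_add ?_ (norm_cop_le _ _))
      refine (norm_sum_le _ _).trans ?_
      rw [mul_comm A, ← nsmul_eq_mul, ← sum_const]
      refine sum_le_sum fun d hd => ?_
      rw [mem_D hδ.ne_zero] at hd
      have hd0 : (1 : ℝ) ≤ N d := by exact_mod_cast hd.1.N_pos
      rw [norm_mul, norm_mob, one_mul, Complex.norm_real, N_one, Nat.cast_one, Real.sqrt_one,
        div_one, Real.norm_of_nonneg (by positivity)]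
      exact div_le_self hA.le hd0
    · rw [hχ.at_zero (oa.mul ob hab), mul_zero, zero_mul, norm_zero]
      intro h1
      have ha1 : a = 1 := ha.eq_one_of_isUnit (isUnit_of_dvd_one ⟨b, h1.symm⟩)
      have hb1 : b = 1 := by rw [ha1, one_mul] at h1; exact h1
      exact h (by rw [ha1, hb1])
  · rw [hχ.big_eq oδ oa ob hab hc h4' hA c₀ K]
    congr 1
    have h1 := mob_collapse δ hδ oδ.2 (fun δ' => ot χ c₀ K A δ' (dv (δ * a) δ') (dv (δ * b) δ'))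
    simp only [dv_mul hδ.ne_zero] at h1
    have h2 : δ * a ∈ SO M Y := mem_SO.2 ⟨hkY, hk.prim, hk.2⟩
    rw [← ot, ← h1, D_eq_filter hδ h2 hab, sum_filter]

theorem total_eq {Y A : ℝ} (hA : 0 < A) {𝒦 : Finset M} (h𝒦 : ∀ k ∈ 𝒦, Sq k ∧ (N k : ℝ) ≤ Y)
    (h4 : ∀ k ∈ 𝒦, ∀ l ∈ 𝒦, cm k = cm l) (c : M → ℂ) (c₀ K : ℝ) :
    ∃ z : M → M → ℂ,
      (∀ k ∈ 𝒦, ∀ l ∈ 𝒦, ‖z k l‖ ≤ (if k = l then (w6 M) * (A * (D k).card + 1) else 0)) ∧
      ∑ k ∈ 𝒦, ∑ l ∈ 𝒦, conj (c k) * c l * big χ K A k l =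
      (∑ k ∈ 𝒦, ∑ l ∈ 𝒦, conj (c k) * c l * z k l) +
      ∑ e ∈ SO M Y, ∑ δ ∈ D e, mob (dv e δ) *
        ∑ k ∈ 𝒦.filter (fun k => e ∣ k), ∑ l ∈ 𝒦.filter (fun l => e ∣ l),
          conj (c k) * c l * ot χ c₀ K A δ (dv k δ) (dv l δ) := by
  classical
  have h1 : ∀ k l : M, ∃ z : ℂ, k ∈ 𝒦 → l ∈ 𝒦 →
      (‖z‖ ≤ (if k = l then (w6 M) * (A * (D k).card + 1) else 0) ∧
      big χ K A k l = z + ∑ e ∈ SO M Y, (if e ∣ k ∧ e ∣ l then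
        ∑ δ ∈ D e, mob (dv e δ) * ot χ c₀ K A δ (dv k δ) (dv l δ) else 0)) := by
    intro k l
    by_cases hk : k ∈ 𝒦
    · by_cases hl : l ∈ 𝒦
      · obtain ⟨z, hz⟩ := hχ.big_decomp hA (h𝒦 k hk).1 (h𝒦 l hl).1 (h𝒦 k hk).2 (h4 k hk l hl) c₀ K
        exact ⟨z, fun _ _ => hz⟩
      · exact ⟨0, fun _ h => absurd h hl⟩
    · exact ⟨0, fun h => absurd h hk⟩
  choose z hz using h1
  refine ⟨z, fun k hk l hl => (hz k l hk hl).1, ?_⟩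
  have h2 : ∑ k ∈ 𝒦, ∑ l ∈ 𝒦, conj (c k) * c l * big χ K A k l =
      (∑ k ∈ 𝒦, ∑ l ∈ 𝒦, conj (c k) * c l * z k l) +
      ∑ k ∈ 𝒦, ∑ l ∈ 𝒦, ∑ e ∈ SO M Y, (if e ∣ k ∧ e ∣ l then conj (c k) * c l *
        ∑ δ ∈ D e, mob (dv e δ) * ot χ c₀ K A δ (dv k δ) (dv l δ) else 0) := by
    rw [← sum_add_distrib]
    refine sum_congr rfl fun k hk => ?_
    rw [← sum_add_distrib]
    refine sum_congr rfl fun l hl => ?_
    rw [(hz k l hk hl).2, mul_add, mul_sum]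
    congr 1
    refine sum_congr rfl fun e _ => ?_
    split_ifs
    · rfl
    · rw [mul_zero]
  rw [h2]
  congr 1
  rw [sum_pair_filter]
  refine sum_congr rfl fun e _ => ?_
  have h3 : ∑ k ∈ 𝒦.filter (fun k => e ∣ k), ∑ l ∈ 𝒦.filter (fun l => e ∣ l),
      conj (c k) * c l * ∑ δ ∈ D e, mob (dv e δ) * ot χ c₀ K A δ (dv k δ) (dv l δ) =
      ∑ k ∈ 𝒦.filter (fun k => e ∣ k), ∑ l ∈ 𝒦.filter (fun l => e ∣ l), ∑ δ ∈ D e,
        mob (dv e δ) * (conj (c k) * c l * ot χ c₀ K A δ (dv k δ) (dv l δ)) := by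
    refine sum_congr rfl fun k _ => sum_congr rfl fun l _ => ?_
    rw [mul_sum]
    refine sum_congr rfl fun δ _ => ?_
    ring
  rw [h3, sum3_comm]
  refine sum_congr rfl fun δ _ => ?_
  rw [mul_sum]
  refine sum_congr rfl fun k _ => ?_
  rw [mul_sum]

/-- positivity: the arguments with large squarefree kernel -/
theorem lower {c0 c1 : ℝ} (h1 : 0 < c1) (hc : ∀ x : ℝ, 0 < x → x ≤ c0 → c1 ≤ Rad.Th M x)
    {K A : ℝ} (hA : 0 < A) (𝒦 S : Finset M) (c : M → ℂ) (h𝒦 : ∀ k ∈ 𝒦, Sq k)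
    (hS : ∀ v ∈ S, Squarefree v ∧ K < (N v : ℝ) ∧ (N v : ℝ) ≤ c0 * A) :
    ∑ v ∈ S, ‖∑ k ∈ 𝒦, c k * χ k v‖ ^ 2 ≤
      c1⁻¹ * ‖∑ k ∈ 𝒦, ∑ l ∈ 𝒦, conj (c k) * c l * big χ K A k l‖ := by
  classical
  set f : M × M → ℝ := fun p => if K < (N p.1 : ℝ) ∧ Squarefree p.1 ∧ p.2 ≠ 0 then
    ‖∑ k ∈ 𝒦, c k * χ k (p.1 * p.2 ^ 2)‖ ^ 2 * gr A (p.1 * p.2 ^ 2) else 0
    with hf
  have hf0 : ∀ p, 0 ≤ f p := fun p => by
    simp only [hf]
    split_ifs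
    · exact mul_nonneg (sq_nonneg _) (gr_nonneg hA _)
    · exact le_rfl
  have hg : ∀ k ∈ 𝒦, ∀ l ∈ 𝒦, Summable fun p : M × M =>
      if K < (N p.1 : ℝ) then pr (fun x => χ k x * χ l x * gc A x) p else 0 := by
    intro k hk l hl
    have h1 := (hasSum_pr (summable_gc hA (ψ := fun x => χ k x * χ l x) fun x => by
      rw [norm_mul]
      exact mul_le_one₀ (hχ.norm_le (h𝒦 k hk) x) (norm_nonneg _)
        (hχ.norm_le (h𝒦 l hl) x))).summable.norm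
    refine Summable.of_norm_bounded h1 fun p => ?_
    split_ifs
    · exact le_rfl
    · rw [norm_zero]; exact norm_nonneg _
  have h1' : HasSum (fun p => (f p : ℂ)) (∑ k ∈ 𝒦, ∑ l ∈ 𝒦, conj (c k) * c l * big χ K A k l) := by
    have h2 := hasSum_sum fun k hk => hasSum_sum fun l hl =>
      ((hg k hk l hl).hasSum.mul_left (conj (c k) * c l))
    refine h2.congr_fun fun p => ?_
    simp only [hf, pr]
    by_cases hp : K < (N p.1 : ℝ) ∧ Squarefree p.1 ∧ p.2 ≠ 0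
    · simp only [if_pos hp, if_pos hp.1, if_pos hp.2]
      rw [Complex.ofReal_mul, Complex.ofReal_pow, ← Complex.conj_mul', map_sum, sum_mul_sum,
        sum_mul]
      refine sum_congr rfl fun k hk => ?_
      rw [sum_mul]
      refine sum_congr rfl fun l _ => ?_
      rw [map_mul, hχ.conj_eq (h𝒦 k hk), gc]; ring
    · rw [if_neg hp, Complex.ofReal_zero]
      refine (sum_eq_zero fun k _ => sum_eq_zero fun l _ => ?_).symm
      split_ifs with h3 h4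
      · exact absurd ⟨h3, h4⟩ hp
      · exact mul_zero _
      · exact mul_zero _
  have h2 : HasSum f (∑ k ∈ 𝒦, ∑ l ∈ 𝒦, conj (c k) * c l * big χ K A k l).re := by
    simpa using Complex.reCLM.hasSum h1'
  have h3 := sum_le_hasSum (S.image fun v => (v, (1 : M))) (fun p _ => hf0 p) h2
  rw [sum_image fun x _ y _ h => (Prod.mk.inj h).1] at h3
  refine le_trans ?_ (mul_le_mul_of_nonneg_left (h3.trans (Complex.re_le_norm _))
    (inv_pos.2 h1).le)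
  rw [mul_sum]
  refine sum_le_sum fun v hv => ?_
  obtain ⟨s1, s2, s3⟩ := hS v hv
  simp only [hf]
  rw [if_pos ⟨s2, s1, one_ne_zero⟩, one_pow, mul_one]
  have h4 : 1 ≤ c1⁻¹ * gr A v := by
    rw [← div_eq_inv_mul, one_le_div h1, gr_of_ne A s1.ne_zero]
    exact hc _ (div_pos (N_pos' s1.ne_zero) hA) ((div_le_iff₀ hA).2 s3)
  nlinarith [sq_nonneg ‖∑ k ∈ 𝒦, c k * χ k v‖]

/-- bound for one pair e, δ -/
theorem ot_bound {c₀ η : ℝ} (hη : 0 < η) (hη4 : η ≤ 1 / 4) (hG1 : MelRep (Rm M c₀) η)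
    (hG2 : MelRep (Rm M c₀) (1 / 2 - η)) (hG3 : MelRep (thq M) 5) : ∃ C : ℝ, 0 < C ∧
    ∀ (T : Finset M) (c : M → ℂ) (δ : M) (C₀ β γ ξ A K Y τ : ℝ),
      HypC χ C₀ β γ ξ → 0 ≤ C₀ → 0 ≤ β → β ≤ 2 → 0 ≤ γ → 1 ≤ ξ → ξ ≤ 2 → 1 ≤ A → 1 ≤ K →
      Y ^ 2 ≤ K * A → 1 ≤ τ → Prim δ → (N δ : ℝ) ≤ Y → Squarefree δ →
      (∀ k ∈ T, Sq k ∧ (N k : ℝ) ≤ Y ∧ Y < 2 * N k ∧ δ ∣ k) →
      (∀ e ∈ SO M Y, ((D e).card : ℝ) ≤ τ) →
      ‖∑ k ∈ T, ∑ l ∈ T, conj (c k) * c l * ot χ c₀ K A δ (dv k δ) (dv l δ)‖ ≤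
        C * (τ ^ 4 * (K * A) ^ (2 * η) * (C₀ * K ^ β * Y ^ γ) *
          (A + Y + Real.sqrt A * K ^ (ξ - 1 / 2) + K ^ ξ)) * ∑ k ∈ T, ‖c k‖ ^ 2 := by
  obtain ⟨C1, hC1, h1⟩ := hχ.dual_bound hη hη4 hG1 hG2 hG3
  obtain ⟨C2, hC2, h2⟩ := hχ.prim_bound hη hG1
  refine ⟨C1 + C2, by positivity, ?_⟩
  intro T c δ C₀ β γ ξ A K Y τ hH hC₀ hβ hβ2 hγ hξ hξ2 hA hK hY hτ hδ hδY sδ hT hD
  have pδ : (1 : ℝ) ≤ N δ := by exact_mod_cast hδ.N_pos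
  have hY1 : 1 ≤ Y := pδ.trans hδY
  have hR : 1 ≤ Y / N δ := (one_le_div (by linarith)).2 hδY
  have hRY : Y / N δ ≤ Y := div_le_self (by linarith) pδ
  have hA0 : 0 < A := by linarith
  have hK0 : 0 < K := by linarith
  have ht : Set.InjOn (fun k => dv k δ) T := by
    intro k hk l hl h
    obtain ⟨a, rfl⟩ := (hT k hk).2.2.2
    obtain ⟨b, rfl⟩ := (hT l hl).2.2.2
    simp only [dv_mul hδ.ne_zero] at h
    rw [h]
  have hT' : ∀ k ∈ T, Sq (dv k δ) ∧ (N (dv k δ) : ℝ) ≤ Y / N δ ∧ Y / N δ / 2 < N (dv k δ) := by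
    intro k hk
    obtain ⟨o, l1, l2, a, rfl⟩ := hT k hk
    rw [N_mul, Nat.cast_mul] at l1 l2
    rw [dv_mul hδ.ne_zero]
    refine ⟨o.of_dvd (hδ.of_mul_left o.prim) (dvd_mul_left _ _), ?_, ?_⟩
    · rw [le_div_iff₀ (by linarith)]; linarith
    · rw [div_div, div_lt_iff₀ (by linarith)]; linarith
  have hτ' : ∀ k ∈ T, ((D (dv k δ)).card : ℝ) ≤ τ := fun k hk =>
    hD _ (mem_SO.2 ⟨(hT' k hk).2.1.trans hRY, (hT' k hk).1.prim, (hT' k hk).1.2⟩)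
  have hτδ : ((D δ).card : ℝ) ≤ τ := hD _ (mem_SO.2 ⟨hδY, hδ, sδ⟩)
  have a2 := h2 T (fun k => dv k δ) c δ A K (Y / N δ) _ τ (hH K _ hK hR) (by positivity) hA0 ht
    (fun k hk => ⟨(hT' k hk).1, (hT' k hk).2.1⟩) hδ.ne_zero hτ'
  have a1 : ∀ d ∈ D δ, ‖∑ k ∈ T, ∑ l ∈ T, conj (c k) * c l *
      ∑' v : M, dualT χ c₀ K A δ d (dv k δ) (dv l δ) v‖ ≤
      C1 * ((D δ).card * ((K * A) ^ (2 * η) * (τ ^ 2 * (C₀ * K ^ β * (Y / N δ) ^ γ *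
          (A + Real.sqrt A * K ^ (ξ - 1 / 2)) * ∑ k ∈ T, ‖c k‖ ^ 2)))) := fun d hd => by
    rw [mem_D hδ.ne_zero] at hd
    have pd := N_le_of_dvd hδ.ne_zero hd.2
    refine h1 T (fun k => dv k δ) c δ d C₀ β γ ξ A K (Y / N δ) τ hH hC₀ hβ hβ2 hξ hξ2 hA hK hR
      ?_ ht hT' hδ.ne_zero hd.1.ne_zero hτ'
    calc (Y / N δ) ^ 2 * (N d : ℝ) ^ 2 ≤ (Y / N δ) ^ 2 * (N δ : ℝ) ^ 2 := by gcongr
      _ = Y ^ 2 := by field_simp
      _ ≤ _ := hY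
  have e1 : ∑ k ∈ T, ∑ l ∈ T, conj (c k) * c l * ot χ c₀ K A δ (dv k δ) (dv l δ) =
      ∑ d ∈ D δ, ∑ k ∈ T, ∑ l ∈ T, conj (c k) * c l *
        ∑' v : M, dualT χ c₀ K A δ d (dv k δ) (dv l δ) v -
      ∑ k ∈ T, ∑ l ∈ T, conj (c k) * c l * ∑ v ∈ SqK M K, primT χ c₀ A δ (dv k δ) (dv l δ) v := by
    rw [← sum3_comm, ← sum_sub_distrib]
    refine sum_congr rfl fun k _ => ?_
    rw [← sum_sub_distrib]
    refine sum_congr rfl fun l _ => ?_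
    rw [ot, mul_sub, mul_sum]
  rw [e1]
  refine (norm_sub_le _ _).trans ?_
  have a3 := (norm_sum_le _ _).trans (sum_le_sum a1)
  rw [sum_const, nsmul_eq_mul] at a3
  refine (add_le_add a3 a2).trans ?_
  have hS0 : 0 ≤ ∑ k ∈ T, ‖c k‖ ^ 2 := by positivity
  generalize ∑ k ∈ T, ‖c k‖ ^ 2 = Sc at hS0 ⊢
  have ht0 : 0 ≤ ((D δ).card : ℝ) := by positivity
  generalize ((D δ).card : ℝ) = t at hτδ ht0 ⊢
  have n1 : (Y / N δ) ^ γ ≤ Y ^ γ := Real.rpow_le_rpow (by linarith) hRY hγ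
  have n2 : A ^ η ≤ (K * A) ^ (2 * η) :=
    (Real.rpow_le_rpow hA0.le (le_mul_of_one_le_left hA0.le hK) hη.le).trans
      (Real.rpow_le_rpow_of_exponent_le (one_le_mul_of_one_le_of_one_le hK hA) (by linarith))
  have n3 : A + Real.sqrt A * K ^ (ξ - 1 / 2) ≤
      A + Y + Real.sqrt A * K ^ (ξ - 1 / 2) + K ^ ξ := by
    have : 0 ≤ K ^ ξ := by positivity
    linarith
  have n4 : K ^ ξ + Y / N δ ≤ A + Y + Real.sqrt A * K ^ (ξ - 1 / 2) + K ^ ξ := by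
    have : 0 ≤ Real.sqrt A * K ^ (ξ - 1 / 2) := by positivity
    linarith
  have n5 : t ≤ τ * τ := hτδ.trans (le_mul_of_one_le_left (by linarith) hτ)
  have hE : 0 ≤ A + Real.sqrt A * K ^ (ξ - 1 / 2) := by positivity
  have hE' : 0 ≤ K ^ ξ + Y / N δ := by positivity
  generalize A + Y + Real.sqrt A * K ^ (ξ - 1 / 2) + K ^ ξ = E at n3 n4 ⊢
  generalize A + Real.sqrt A * K ^ (ξ - 1 / 2) = E₁ at n3 hE ⊢
  generalize K ^ ξ + Y / N δ = E₂ at n4 hE' ⊢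
  calc t * (C1 * (t * ((K * A) ^ (2 * η) * (τ ^ 2 * (C₀ * K ^ β * (Y / N δ) ^ γ * E₁ * Sc))))) +
        C2 * (t * (A ^ η * (τ ^ 2 * (C₀ * K ^ β * (Y / N δ) ^ γ * E₂ * Sc))))
      ≤ τ * (C1 * (τ * ((K * A) ^ (2 * η) * (τ ^ 2 * (C₀ * K ^ β * Y ^ γ * E * Sc))))) +
        C2 * (τ * τ * ((K * A) ^ (2 * η) * (τ ^ 2 * (C₀ * K ^ β * Y ^ γ * E * Sc)))) := by
        gcongr
    _ = _ := by ring

/-- the step with explicit parameters -/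
theorem core {c0 c1 : ℝ} (hc1 : 0 < c1) (hc : ∀ x : ℝ, 0 < x → x ≤ c0 → c1 ≤ Rad.Th M x)
    {c₀ η : ℝ} (hη : 0 < η) (hη4 : η ≤ 1 / 4) (hG1 : MelRep (Rm M c₀) η)
    (hG2 : MelRep (Rm M c₀) (1 / 2 - η)) (hG3 : MelRep (thq M) 5) : ∃ C : ℝ, 0 < C ∧
    ∀ (C₀ β γ ξ A K Y τ : ℝ),
      HypC χ C₀ β γ ξ → 1 ≤ C₀ → 0 ≤ β → β ≤ 2 → 0 ≤ γ → 1 ≤ ξ → ξ ≤ 2 → 1 ≤ A → 1 ≤ K → 1 ≤ Y →
      Y ^ 2 ≤ K * A → 1 ≤ τ → (∀ e ∈ SO M Y, ((D e).card : ℝ) ≤ τ) →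
      LSc χ (c0 * A) Y (C * (τ ^ 6 * (K * A) ^ (2 * η) * (C₀ * K ^ β * Y ^ γ) *
          (A + Y + Real.sqrt A * K ^ (ξ - 1 / 2) + K ^ ξ))) := by
  classical
  obtain ⟨C1, hC1, h1⟩ := hχ.ot_bound hη hη4 hG1 hG2 hG3
  have hw := w6_nonneg (M := M)
  refine ⟨1 + c1⁻¹ * (2 * (w6 M) + C1), by positivity, ?_⟩
  intro C₀ β γ ξ A K Y τ hH hC₀ hβ hβ2 hγ hξ hξ2 hA hK hY1 hY hτ hD 𝒦 S c h𝒦 h4 hS
  have hA0 : 0 < A := by linarith
  have hK0 : 0 < K := by linarith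
  have hY0 : 0 < Y := by linarith
  have hτ0 : 0 < τ := by linarith
  have hSF : ∀ k ∈ 𝒦, k ∈ SO M Y := fun k hk =>
    mem_SO.2 ⟨(h𝒦 k hk).2.1, (h𝒦 k hk).1.prim, (h𝒦 k hk).1.2⟩
  obtain ⟨z, hz, htot⟩ := hχ.total_eq hA0 (fun k hk => ⟨(h𝒦 k hk).1, (h𝒦 k hk).2.1⟩) h4 c c₀ K
  have hlow := hχ.lower hc1 hc (K := K) hA0 𝒦 (S.filter fun v => ¬ (N v : ℝ) ≤ K) c
    (fun k hk => (h𝒦 k hk).1) (fun v hv => by
      rw [mem_filter] at hv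
      exact ⟨(hS v hv.1).1, not_le.1 hv.2, (hS v hv.1).2⟩)
  have hsm := hH K Y hK hY1 𝒦 (S.filter fun v => (N v : ℝ) ≤ K) c
    (fun k hk => ⟨(h𝒦 k hk).1, (h𝒦 k hk).2.1⟩) (fun v hv => by
      rw [mem_filter] at hv
      exact ⟨(hS v hv.1).1, hv.2⟩)
  rw [← sum_filter_add_sum_filter_not S fun v => (N v : ℝ) ≤ K]
  have hA1 : ‖∑ k ∈ 𝒦, ∑ l ∈ 𝒦, conj (c k) * c l * z k l‖ ≤
      (w6 M) * (A * τ + 1) * ∑ k ∈ 𝒦, ‖c k‖ ^ 2 := by
    calc ‖∑ k ∈ 𝒦, ∑ l ∈ 𝒦, conj (c k) * c l * z k l‖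
        ≤ ∑ k ∈ 𝒦, ∑ l ∈ 𝒦, ‖conj (c k) * c l * z k l‖ :=
          (norm_sum_le _ _).trans (sum_le_sum fun k _ => norm_sum_le _ _)
      _ ≤ ∑ k ∈ 𝒦, ∑ l ∈ 𝒦,
            (if k = l then ‖c k‖ ^ 2 * ((w6 M) * (A * (D k).card + 1)) else 0) := by
          refine sum_le_sum fun k hk => sum_le_sum fun l hl => ?_
          rw [norm_mul, norm_mul, Complex.norm_conj]
          have h3 := hz k hk l hl
          split_ifs at h3 ⊢ with hkl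
          · subst hkl
            rw [← pow_two]
            gcongr
          · have : ‖z k l‖ = 0 := le_antisymm h3 (norm_nonneg _)
            rw [this, mul_zero]
      _ = ∑ k ∈ 𝒦, ‖c k‖ ^ 2 * ((w6 M) * (A * (D k).card + 1)) := by
          refine sum_congr rfl fun k hk => ?_
          rw [sum_ite_eq, if_pos hk]
      _ ≤ ∑ k ∈ 𝒦, ‖c k‖ ^ 2 * ((w6 M) * (A * τ + 1)) := by
          refine sum_le_sum fun k hk => ?_
          have := hD k (hSF k hk)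
          gcongr
      _ = _ := by rw [← sum_mul]; ring
  have hZ0 : 0 ≤ τ ^ 4 * (K * A) ^ (2 * η) * (C₀ * K ^ β * Y ^ γ) *
      (A + Y + Real.sqrt A * K ^ (ξ - 1 / 2) + K ^ ξ) := by positivity
  have hA2 : ‖∑ e ∈ SO M Y, ∑ δ ∈ D e, mob (dv e δ) *
        ∑ k ∈ 𝒦.filter (fun k => e ∣ k), ∑ l ∈ 𝒦.filter (fun l => e ∣ l),
          conj (c k) * c l * ot χ c₀ K A δ (dv k δ) (dv l δ)‖ ≤
      τ * (C1 * (τ ^ 4 * (K * A) ^ (2 * η) * (C₀ * K ^ β * Y ^ γ) *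
          (A + Y + Real.sqrt A * K ^ (ξ - 1 / 2) + K ^ ξ))) * (τ * ∑ k ∈ 𝒦, ‖c k‖ ^ 2) := by
    have hb : ∀ e ∈ SO M Y, ∀ δ ∈ D e, ‖mob (dv e δ) *
        ∑ k ∈ 𝒦.filter (fun k => e ∣ k), ∑ l ∈ 𝒦.filter (fun l => e ∣ l),
          conj (c k) * c l * ot χ c₀ K A δ (dv k δ) (dv l δ)‖ ≤
        C1 * (τ ^ 4 * (K * A) ^ (2 * η) * (C₀ * K ^ β * Y ^ γ) *
          (A + Y + Real.sqrt A * K ^ (ξ - 1 / 2) + K ^ ξ)) *
          ∑ k ∈ 𝒦.filter (fun k => e ∣ k), ‖c k‖ ^ 2 := by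
      intro e he δ hδ
      rw [mem_SO] at he
      rw [mem_D he.2.1.ne_zero] at hδ
      rw [norm_mul, norm_mob, one_mul]
      refine h1 _ c δ C₀ β γ ξ A K Y τ hH (by linarith) hβ hβ2 hγ hξ hξ2 hA hK hY hτ hδ.1
        ((N_le_of_dvd he.2.1.ne_zero hδ.2).trans he.1) (he.2.2.squarefree_of_dvd hδ.2)
        (fun k hk => ?_) hD
      rw [mem_filter] at hk
      exact ⟨(h𝒦 k hk.1).1, (h𝒦 k hk.1).2.1, (h𝒦 k hk.1).2.2, hδ.2.trans hk.2⟩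
    have hcov : ∑ e ∈ SO M Y, ∑ k ∈ 𝒦.filter (fun k => e ∣ k), ‖c k‖ ^ 2 ≤
        τ * ∑ k ∈ 𝒦, ‖c k‖ ^ 2 := by
      simp only [sum_filter]
      rw [sum_comm, mul_sum]
      refine sum_le_sum fun k hk => ?_
      rw [← sum_filter, sum_const, nsmul_eq_mul]
      refine mul_le_mul_of_nonneg_right (le_trans ?_ (hD k (hSF k hk))) (by positivity)
      exact_mod_cast card_le_card fun e he => by
        rw [mem_filter, mem_SO] at he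
        exact (mem_D (h𝒦 k hk).1.ne_zero).2 ⟨he.1.2.1, he.2⟩
    generalize τ ^ 4 * (K * A) ^ (2 * η) * (C₀ * K ^ β * Y ^ γ) *
      (A + Y + Real.sqrt A * K ^ (ξ - 1 / 2) + K ^ ξ) = Z at hZ0 hb ⊢
    calc _ ≤ ∑ e ∈ SO M Y, τ * (C1 * Z * ∑ k ∈ 𝒦.filter (fun k => e ∣ k), ‖c k‖ ^ 2) := by
          refine (norm_sum_le _ _).trans (sum_le_sum fun e he => ?_)
          refine (norm_sum_le _ _).trans ((sum_le_sum (hb e he)).trans ?_)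
          rw [sum_const, nsmul_eq_mul]
          exact mul_le_mul_of_nonneg_right (hD e he) (by positivity)
      _ = τ * (C1 * Z) * ∑ e ∈ SO M Y, ∑ k ∈ 𝒦.filter (fun k => e ∣ k), ‖c k‖ ^ 2 := by
          rw [mul_sum]
          exact sum_congr rfl fun e _ => by ring
      _ ≤ _ := by gcongr
  have hbig := (norm_add_le _ _).trans (add_le_add hA1 hA2)
  rw [← htot] at hbig
  refine (add_le_add hsm (hlow.trans (mul_le_mul_of_nonneg_left hbig (inv_pos.2 hc1).le))).trans ?_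
  have hS0 : 0 ≤ ∑ k ∈ 𝒦, ‖c k‖ ^ 2 := by positivity
  generalize ∑ k ∈ 𝒦, ‖c k‖ ^ 2 = Sc at hS0 ⊢
  have n1 : 1 ≤ (K * A) ^ (2 * η) :=
    Real.one_le_rpow (one_le_mul_of_one_le_of_one_le hK hA) (by linarith)
  have n2 : 1 ≤ C₀ * K ^ β * Y ^ γ := one_le_mul_of_one_le_of_one_le
    (one_le_mul_of_one_le_of_one_le hC₀ (Real.one_le_rpow hK hβ)) (Real.one_le_rpow hY1 hγ)
  have n3 : A ≤ A + Y + Real.sqrt A * K ^ (ξ - 1 / 2) + K ^ ξ := by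
    have : 0 ≤ K ^ ξ := by positivity
    have : 0 ≤ Real.sqrt A * K ^ (ξ - 1 / 2) := by positivity
    linarith
  have n4 : K ^ ξ + Y ≤ A + Y + Real.sqrt A * K ^ (ξ - 1 / 2) + K ^ ξ := by
    have : 0 ≤ Real.sqrt A * K ^ (ξ - 1 / 2) := by positivity
    linarith
  have hE' : 0 ≤ K ^ ξ + Y := by positivity
  generalize A + Y + Real.sqrt A * K ^ (ξ - 1 / 2) + K ^ ξ = E at n3 n4 ⊢
  generalize K ^ ξ + Y = E₂ at n4 hE' ⊢
  generalize C₀ * K ^ β * Y ^ γ = B at n2 ⊢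
  generalize (K * A) ^ (2 * η) = P at n1 ⊢
  have n5 : 1 ≤ τ ^ 6 := one_le_pow₀ hτ
  have n6 : τ ≤ τ ^ 6 := le_self_pow₀ hτ (by norm_num)
  have n7 : A * τ + 1 ≤ 2 * (τ ^ 6 * P * B * E) := by
    have m1 : A * τ ≤ τ ^ 6 * P * B * E := by
      calc A * τ = τ * 1 * 1 * A := by ring
        _ ≤ _ := by gcongr
    have m2 : 1 ≤ A * τ := one_le_mul_of_one_le_of_one_le hA hτ
    linarith
  have n8 : B * E₂ ≤ τ ^ 6 * P * B * E := by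
    calc B * E₂ = 1 * 1 * B * E₂ := by ring
      _ ≤ _ := by gcongr
  calc B * E₂ * Sc + c1⁻¹ * ((w6 M) * (A * τ + 1) * Sc +
        τ * (C1 * (τ ^ 4 * P * B * E)) * (τ * Sc))
      ≤ τ ^ 6 * P * B * E * Sc + c1⁻¹ * ((w6 M) * (2 * (τ ^ 6 * P * B * E)) * Sc +
        τ * (C1 * (τ ^ 4 * P * B * E)) * (τ * Sc)) := by gcongr
    _ = _ := by ring

/-- **the Poisson step** for one dyadic range and one class -/
theorem stepC (hM : ThMellin M) {ξ : ℝ} (hξ : 1 ≤ ξ) (hξ2 : ξ ≤ 2) (hH : HypD χ ξ) :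
    StepC χ ξ := by
  intro ε hε
  obtain ⟨hM1, c₀, hM2⟩ := hM
  set η : ℝ := min (ε / 13) (1 / 4) with hη
  have hη0 : 0 < η := lt_min (by linarith) (by norm_num)
  have hη4 : η ≤ 1 / 4 := min_le_right _ _
  have hη13 : 13 * η ≤ ε := by have := min_le_left (ε / 13) (1 / 4); linarith
  clear_value η
  obtain ⟨c0, c1, hc0, hc1, hc⟩ := Rad.Th_lower (M := M)
  set lam : ℝ := max 1 c0⁻¹ with hlam
  have hl1 : 1 ≤ lam := le_max_left _ _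
  have hl2 : 1 ≤ c0 * lam := by
    rw [← mul_inv_cancel₀ hc0.ne']
    exact mul_le_mul_of_nonneg_left (le_max_right _ _) hc0.le
  clear_value lam
  obtain ⟨C1, hC1, h1⟩ := hχ.core hc1 hc (c₀ := c₀) hη0 hη4 (hM2 η hη0 (by linarith))
    (hM2 _ (by linarith) (by linarith)) (hM1 5 (by norm_num))
  obtain ⟨C2, hC2, h2⟩ := card_D_le M hη0
  obtain ⟨C₀, hC₀, h0⟩ := hH η hη0
  refine ⟨C1 * C2 ^ 6 * max C₀ 1 * lam ^ 2, by positivity, fun X Y hX hY => ?_⟩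
  have hX0 : 0 < X := by linarith
  have hY0 : 0 < Y := by linarith
  have hK : 1 ≤ max 1 (Y ^ 2 / X) := le_max_left _ _
  have hK2 : Y ^ 2 ≤ max 1 (Y ^ 2 / X) * X := by
    rw [← div_le_iff₀ hX0]; exact le_max_right _ _
  have hK3 : max 1 (Y ^ 2 / X) ≤ (X * Y) ^ 2 := by
    have m1 : Y ^ 2 ≤ (X * Y) ^ 2 := by gcongr; exact le_mul_of_one_le_left hY0.le hX
    exact max_le ((one_le_pow₀ hY).trans m1) ((div_le_self (by positivity) hX).trans m1)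
  have hK4 : max 1 (Y ^ 2 / X) * X ≤ (X * Y) ^ 2 := by
    have m1 : max 1 (Y ^ 2 / X) ≤ Y ^ 2 :=
      max_le (one_le_pow₀ hY) (div_le_self (by positivity) hX)
    calc max 1 (Y ^ 2 / X) * X ≤ Y ^ 2 * X := by gcongr
      _ = Y ^ 2 * X * 1 := by ring
      _ ≤ Y ^ 2 * X * X := by gcongr
      _ = _ := by ring
  generalize max 1 (Y ^ 2 / X) = K at hK hK2 hK3 hK4 ⊢
  have hK0 : 0 < K := by linarith
  have hτ : 1 ≤ C2 * Y ^ η := one_le_mul_of_one_le_of_one_le hC2 (Real.one_le_rpow hY hη0.le)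
  have h3 := h1 (max C₀ 1) η η ξ (lam * X) K Y (C2 * Y ^ η) (fun X' Y' hX' hY' => by
      refine LSq.mono (h0 X' Y' hX' hY') ?_
      rw [Real.mul_rpow (by linarith) (by linarith), ← mul_assoc]
      have : 0 ≤ X' ^ ξ + Y' := by positivity
      gcongr
      exact le_max_left _ _) (le_max_right _ _) hη0.le (by linarith) hη0.le hξ hξ2
    (one_le_mul_of_one_le_of_one_le hl1 hX) hK hY
    (hK2.trans (mul_le_mul_of_nonneg_left (le_mul_of_one_le_left hX0.le hl1) hK0.le)) hτ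
    (fun e he => by
      rw [mem_SO] at he
      refine (h2 e he.2.1 he.2.2).trans ?_
      gcongr
      exact he.1)
  intro T S c hT h4 hS
  refine (h3 T S c hT h4 fun v hv => ⟨(hS v hv).1, (hS v hv).2.trans (by
    rw [← mul_assoc]; exact le_mul_of_one_le_left hX0.le hl2)⟩).trans ?_
  have hXY : 1 ≤ X * Y := one_le_mul_of_one_le_of_one_le hX hY
  have hP : 1 ≤ (X * Y) ^ η := Real.one_le_rpow hXY hη0.le
  have e2 : ((X * Y) ^ 2) ^ η = ((X * Y) ^ η) ^ 2 := by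
    rw [← Real.rpow_natCast, ← Real.rpow_natCast, ← Real.rpow_mul (by positivity),
      ← Real.rpow_mul (by positivity), mul_comm η]
  have m1 : Y ^ η ≤ (X * Y) ^ η :=
    Real.rpow_le_rpow hY0.le (le_mul_of_one_le_left hY0.le hX) hη0.le
  have m2 : K ^ η ≤ ((X * Y) ^ η) ^ 2 := e2 ▸ Real.rpow_le_rpow hK0.le hK3 hη0.le
  have m3 : (K * X) ^ (2 * η) ≤ ((X * Y) ^ η) ^ 4 := by
    have m4 : (K * X) ^ η ≤ ((X * Y) ^ η) ^ 2 := e2 ▸ Real.rpow_le_rpow (by positivity) hK4 hη0.le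
    calc (K * X) ^ (2 * η) = ((K * X) ^ η) ^ 2 := by
          rw [← Real.rpow_natCast, ← Real.rpow_mul (by positivity), mul_comm η]; norm_num
      _ ≤ (((X * Y) ^ η) ^ 2) ^ 2 := by gcongr
      _ = _ := by ring
  have m5 : ((X * Y) ^ η) ^ 13 ≤ (X * Y) ^ ε := by
    rw [← Real.rpow_natCast, ← Real.rpow_mul (by positivity)]
    exact Real.rpow_le_rpow_of_exponent_le hXY (by push_cast; linarith)
  have hl0 : 0 < lam := by linarith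
  have m6 : (K * (lam * X)) ^ (2 * η) ≤ lam * ((X * Y) ^ η) ^ 4 := by
    rw [mul_left_comm, Real.mul_rpow hl0.le (by positivity)]
    refine mul_le_mul ?_ m3 (by positivity) hl0.le
    calc lam ^ (2 * η) ≤ lam ^ (1 : ℝ) := Real.rpow_le_rpow_of_exponent_le hl1 (by linarith)
      _ = lam := Real.rpow_one _
  have m7 : lam * X + Y + Real.sqrt (lam * X) * K ^ (ξ - 1 / 2) + K ^ ξ ≤
      lam * (X + Y + Real.sqrt X * K ^ (ξ - 1 / 2) + K ^ ξ) := by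
    have m8 : Real.sqrt (lam * X) ≤ lam * Real.sqrt X := by
      rw [Real.sqrt_mul hl0.le]
      refine mul_le_mul_of_nonneg_right ?_ (Real.sqrt_nonneg _)
      rw [Real.sqrt_le_left hl0.le]
      nlinarith
    have m9 : Real.sqrt (lam * X) * K ^ (ξ - 1 / 2) ≤ lam * Real.sqrt X * K ^ (ξ - 1 / 2) := by
      gcongr
    have m10 : Y ≤ lam * Y := le_mul_of_one_le_left hY0.le hl1
    have m11 : K ^ ξ ≤ lam * K ^ ξ := le_mul_of_one_le_left (by positivity) hl1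
    linarith
  have hE : 0 ≤ X + Y + Real.sqrt X * K ^ (ξ - 1 / 2) + K ^ ξ := by positivity
  have hE' : 0 ≤ lam * X + Y + Real.sqrt (lam * X) * K ^ (ξ - 1 / 2) + K ^ ξ := by positivity
  generalize lam * X + Y + Real.sqrt (lam * X) * K ^ (ξ - 1 / 2) + K ^ ξ = E' at hE' m7 ⊢
  generalize X + Y + Real.sqrt X * K ^ (ξ - 1 / 2) + K ^ ξ = E at hE m7 ⊢
  refine mul_le_mul_of_nonneg_right ?_ (by positivity)
  calc C1 * ((C2 * Y ^ η) ^ 6 * (K * (lam * X)) ^ (2 * η) * (max C₀ 1 * K ^ η * Y ^ η) * E')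
      ≤ C1 * ((C2 * (X * Y) ^ η) ^ 6 * (lam * ((X * Y) ^ η) ^ 4) *
        (max C₀ 1 * ((X * Y) ^ η) ^ 2 * (X * Y) ^ η) * (lam * E)) := by gcongr
    _ = C1 * C2 ^ 6 * max C₀ 1 * lam ^ 2 * ((X * Y) ^ η) ^ 13 * E := by ring
    _ ≤ _ := by gcongr

end Vale.Agent.P016Z.Ab.QSym

namespace Vale.Agent.P016Z.QLS

open Vale.Agent.P016Z.Ab

variable {M : Type} [CommMonoidWithZero M] [UniqueFactorizationMonoid M] [Ar M] [Rad M]

/-- **the Poisson step** for one dyadic range and one class -/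
theorem stepC {ρ : M → M → ℂ} (h : QSym ρ) (hM : ThMellin M) {ξ : ℝ} (hξ : 1 ≤ ξ) (hξ2 : ξ ≤ 2)
    (hH : HypD ρ ξ) : StepC ρ ξ := h.stepC hM hξ hξ2 hH

end Vale.Agent.P016Z.QLS
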