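import Vale.Agent.P016Z.QLS.Base
import Vale.Agent.P016Z.QLS.Step

/-!
P016, block QLS: the quadratic large sieve over the abstract monoid.
-/

namespace Vale.Agent.P016Z.QLS

open Vale.Agent.P016Z.Ab

variable {M : Type} [CommMonoidWithZero M] [UniqueFactorizationMonoid M] [Ar M] [Rad M]

/-- **the quadratic large sieve**, outer sum over the moduli -/
theorem qlsMod {ρ : M → M → ℂ} (hA : ∀ v : M, v ≠ 0 → ∃ w : M, Prim w ∧ Associated v w)
    (h : QSym ρ) (hM : ThMellin M) : QLSmod ρ :=
  B.qlsMod_of hA h fun _ h1 h2 hD => stepC h hM h1 h2 hD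

end Vale.Agent.P016Z.QLS
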