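import Vale.Agent.P016Z.QLS.Rec
import Vale.Agent.P016Z.Ab.Wt

/-!
P016, block QLS: the starting point `X + Y²` of the recursion.
-/

namespace Vale.Agent.P016Z.QLS.B

open Vale.Agent.P016Z.Ab Finset
open scoped ComplexConjugate

set_option linter.unusedSectionVars false

variable {M : Type} [CommMonoidWithZero M] [UniqueFactorizationMonoid M] [Ar M] [Rad M]
  {χ : M → M → ℂ}

theorem gr_eq_gw {A : ℝ} (hA : 0 < A) (x : M) : gr A x = gw (show Gr M from (⟨A, hA⟩ : Pos)) x :=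
  (gw_eq_gr (show Gr M from (⟨A, hA⟩ : Pos)) x).symm

theorem gr_nonneg {A : ℝ} (hA : 0 < A) (x : M) : 0 ≤ gr A x := by
  rw [gr_eq_gw hA]; exact gw_nonneg _ _

theorem summable_gr0 {A : ℝ} (hA : 0 < A) : Summable fun x : M => gr A x := by
  simp only [gr_eq_gw hA]; exact summable_gw0 _

theorem summable_gr {A : ℝ} (hA : 0 < A) {ψ : M → ℂ} {B : ℝ} (hψ : ∀ x, ‖ψ x‖ ≤ B) :
    Summable fun x : M => ψ x * (gr A x : ℂ) := by
  simp only [gr_eq_gw hA]; exact summable_gw _ hψ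

theorem gr_mul {A : ℝ} {d : M} (hd : d ≠ 0) (y : M) : gr A (d * y) = gr (A / N d) y := by
  unfold gr
  by_cases hy : y = 0
  · simp [hy]
  · rw [if_neg (mul_ne_zero hd hy), if_neg hy, N_mul', div_div_eq_mul_div, mul_comm (N d : ℝ)]

variable (M) in
/-- the sum over the nonzero frequencies -/
theorem tsum_gr_le {σ : ℝ} (hσ : 1 < σ) : ∃ C : ℝ, 0 < C ∧ ∀ A : ℝ, 0 < A → ∀ ψ : M → ℂ,
    (∀ x, ‖ψ x‖ ≤ 1) → ‖∑' x : M, ψ x * (gr A x : ℂ)‖ ≤ ‖ψ 0‖ + C * A ^ σ := by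
  classical
  obtain ⟨C, hC, h⟩ := Th_le M (σ := σ) (by linarith)
  have hs := summable_N_rpow (M := M) hσ
  have hZ : 0 ≤ ∑' z : M, (N z : ℝ) ^ (-σ) := tsum_nonneg fun z => by positivity
  refine ⟨C * (∑' z : M, (N z : ℝ) ^ (-σ)) + 1, by positivity, fun A hA ψ hψ => ?_⟩
  have h1 := (hasSum_ite_eq (0 : M) ‖ψ 0‖).add (hs.hasSum.mul_left (C * A ^ σ))
  refine (tsum_of_norm_bounded h1 fun x => ?_).trans ?_
  · rw [norm_mul, Complex.norm_real, Real.norm_of_nonneg (gr_nonneg hA x)]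
    by_cases hx : x = 0
    · subst hx
      have : 0 ≤ C * A ^ σ * (N (0 : M) : ℝ) ^ (-σ) := by positivity
      rw [if_pos rfl, gr, if_pos rfl, mul_one]
      linarith
    · have hN := N_pos' hx
      have h2 : Rad.Th M (N x / A) ≤ C * (N x / A) ^ (-σ) :=
        h (show Gr M from (⟨N x / A, by positivity⟩ : Pos))
      rw [if_neg hx, zero_add, gr, if_neg hx]
      have h3 : 0 ≤ Rad.Th M (N x / A) := Rad.Th_nonneg _ (by positivity)
      calc ‖ψ x‖ * Rad.Th M (N x / A) ≤ 1 * (C * (N x / A) ^ (-σ)) := by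
            gcongr
            exact hψ x
        _ = _ := by
            rw [Real.div_rpow hN.le hA.le, Real.rpow_neg hA.le, div_inv_eq_mul]; ring
  · have : 0 ≤ A ^ σ := by positivity
    nlinarith

theorem conj_chi (hχ : QSym χ) {n : M} (hn : Sq n) (x : M) : conj (χ n x) = χ n x := by
  have h := hχ.sq n x hn
  unfold cop at h
  split_ifs at h
  · rcases mul_self_eq_one_iff.1 h with e | e <;> simp [e]
  · simp [mul_self_eq_zero.1 h]

theorem chi_zero (hχ : QSym χ) {n : M} (hn : Sq n) (h1 : n ≠ 1) : χ n 0 = 0 := by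
  have h := hχ.sq n 0 hn
  rw [cop, if_neg fun e => h1 (hn.prim.eq_one_of_isUnit (isRelPrime_zero_left.1 e))] at h
  exact mul_self_eq_zero.1 h

open Classical in
theorem tsum_dvd {A : ℝ} {d : M} (hd : d ≠ 0) (f : M → ℂ) :
    ∑' x : M, (if d ∣ x then f x else 0) * (gr A x : ℂ) =
      ∑' y : M, f (d * y) * (gr (A / N d) y : ℂ) := by
  rw [← (mul_right_injective₀ hd).tsum_eq
    (f := fun x => (if d ∣ x then f x else 0) * (gr A x : ℂ))]
  · exact tsum_congr fun y => by simp only [dvd_mul_right, if_true, gr_mul hd]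
  · intro x hx
    by_contra h
    refine hx ?_
    simp only
    rw [if_neg fun ⟨y, hy⟩ => h ⟨y, hy.symm⟩, zero_mul]

/-- the off-diagonal terms -/
theorem offdiag (hχ : QSym χ) {ε : ℝ} (hε : 0 < ε) {c0 : ℝ} (hc0 : 0 < c0) :
    ∃ C : ℝ, 0 < C ∧ ∀ (A Y : ℝ) (k l : M), 1 ≤ A * c0 → 1 ≤ Y → Sq k → Sq l → (N k : ℝ) ≤ Y →
      (N l : ℝ) ≤ Y → cm k = cm l → k ≠ l →
      ‖∑' x : M, (χ k x * χ l x) * (gr A x : ℂ)‖ ≤ C * (Y ^ ε) ^ 4 * Y := by
  classical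
  obtain ⟨C1, hC1, h1⟩ := tsum_gr_le M (σ := 1 + ε) (by linarith)
  obtain ⟨C2, hC2, h2⟩ := card_D_le M hε
  refine ⟨C2 * C1 * c0 ^ ε, by positivity, fun A Y k l hA hY hk hl hkY hlY hc hne => ?_⟩
  have hA0 : 0 < A := (pos_iff_pos_of_mul_pos (by linarith : 0 < A * c0)).2 hc0
  have hY0 : 0 < Y := by linarith
  obtain ⟨δ, a, b, hδ, ha, hb, rfl, rfl, hab⟩ := exists_pgcd hk.prim hl.prim
  have sδ : Sq δ := hk.left hδ
  have sa : Sq a := hk.of_mul_left hδ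
  have sb : Sq b := hl.of_mul_left hδ
  have sab : Sq (a * b) := sa.mul sb hab
  have hab1 : a * b ≠ 1 := fun e => hne (by
    rw [ha.eq_one_of_isUnit (IsUnit.of_mul_eq_one _ e),
      hb.eq_one_of_isUnit (IsUnit.of_mul_eq_one_right _ e)])
  have hcm := hχ.cm_cancel δ a b hδ.ne_zero ha.ne_zero hb.ne_zero hc
  have e1 : ∀ x, (χ (δ * a) x * χ (δ * b) x) * (gr A x : ℂ) =
      ∑ d ∈ D δ, (if d ∣ x then mob d * χ (a * b) x else 0) * (gr A x : ℂ) := by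
    intro x
    rw [hχ.mul_left δ a x sδ sa hk.coprime, hχ.mul_left δ b x sδ sb hl.coprime,
      mul_mul_mul_comm, hχ.sq δ x sδ, ← hχ.mul_left a b x sa sb hab, cop_eq_sum hδ sδ.2, sum_mul,
      sum_mul]
    exact sum_congr rfl fun d _ => by split_ifs <;> simp
  have hδY : (N δ : ℝ) ≤ Y := (N_le_of_dvd hk.ne_zero (dvd_mul_right _ _)).trans hkY
  have hP : (N (a * b) : ℝ) ≤ Y * Y := by
    rw [N_mul']
    exact mul_le_mul ((N_le_of_dvd hk.ne_zero (dvd_mul_left _ _)).trans hkY)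
      ((N_le_of_dvd hl.ne_zero (dvd_mul_left _ _)).trans hlY) (by positivity) hY0.le
  have hP0 := N_pos' sab.ne_zero
  rw [tsum_congr e1, Summable.tsum_finsetSum fun d _ => summable_gr hA0 (B := 1) fun x => by
    split_ifs
    · rw [norm_mul, norm_mob, one_mul]; exact norm_le_one hχ sab x
    · simp]
  have e2 : ∀ d ∈ D δ, ‖∑' x : M, (if d ∣ x then mob d * χ (a * b) x else 0) * (gr A x : ℂ)‖ ≤
      C1 * c0 ^ ε * (Y ^ ε) ^ 3 * Y := by
    intro d hd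
    rw [mem_D hδ.ne_zero] at hd
    have hd0 := hd.1.ne_zero
    have hNd := N_pos' hd0
    have hdY : (N d : ℝ) ≤ Y := (N_le_of_dvd hδ.ne_zero hd.2).trans hδY
    rw [tsum_dvd hd0]
    simp only [hχ.mul_right _ d _ sab, ← mul_assoc]
    simp only [mul_assoc (mob d * χ (a * b) d)]
    set A' := A / N d with hA'
    have hA'0 : 0 < A' := by positivity
    rw [tsum_mul_left, hχ.pois a b A' sa sb hab hcm hA'0, norm_mul, norm_mul, norm_mul, norm_mob,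
      one_mul, Complex.norm_real, Real.norm_of_nonneg (by positivity)]
    have h3 := h1 (N (a * b) / A') (by positivity) (χ (a * b)) (norm_le_one hχ sab)
    rw [chi_zero hχ sab hab1, norm_zero, zero_add] at h3
    set P : ℝ := (N (a * b) : ℝ) with hPdef
    have h4 : P / A' ≤ c0 * (Y * Y * Y) := by
      rw [hA', div_div_eq_mul_div, div_le_iff₀ hA0]
      calc P * N d ≤ 1 * (Y * Y * Y) := by rw [one_mul]; gcongr
        _ ≤ (A * c0) * (Y * Y * Y) := by gcongr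
        _ = _ := by ring
    have h5 : (P / A') ^ ε ≤ c0 ^ ε * (Y ^ ε) ^ 3 := by
      refine (Real.rpow_le_rpow (by positivity) h4 hε.le).trans (le_of_eq ?_)
      rw [Real.mul_rpow hc0.le (by positivity), Real.mul_rpow (by positivity) hY0.le,
        Real.mul_rpow hY0.le hY0.le]
      ring
    have h6 : Real.sqrt P ≤ Y := Real.sqrt_le_iff.2 ⟨hY0.le, by rw [sq]; exact hP⟩
    have h7 : 0 < Real.sqrt P := Real.sqrt_pos.2 hP0
    have h8 : A' / Real.sqrt P * (C1 * (P / A') ^ (1 + ε)) = C1 * (P / A') ^ ε * Real.sqrt P := by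
      rw [Real.rpow_add (by positivity), Real.rpow_one]
      field_simp
      rw [Real.sq_sqrt hP0.le]
    calc ‖χ (a * b) d‖ * (A' / Real.sqrt P * ‖∑' x : M, χ (a * b) x * (gr (P / A') x : ℂ)‖)
        ≤ 1 * (A' / Real.sqrt P * (C1 * (P / A') ^ (1 + ε))) := by
          gcongr
          exact norm_le_one hχ sab d
      _ = C1 * (P / A') ^ ε * Real.sqrt P := by rw [one_mul, h8]
      _ ≤ C1 * (c0 ^ ε * (Y ^ ε) ^ 3) * Y := by gcongr
      _ = _ := by ring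
  refine (norm_sum_le_of_le _ e2).trans ?_
  rw [sum_const, nsmul_eq_mul]
  have h9 : ((D δ).card : ℝ) ≤ C2 * Y ^ ε := (h2 δ hδ sδ.2).trans (by gcongr)
  calc ((D δ).card : ℝ) * (C1 * c0 ^ ε * (Y ^ ε) ^ 3 * Y)
      ≤ C2 * Y ^ ε * (C1 * c0 ^ ε * (Y ^ ε) ^ 3 * Y) := by gcongr
    _ = _ := by ring

/-- the base case for moduli in one class -/
theorem base_cls (hχ : QSym χ) {ε : ℝ} (hε : 0 < ε) : ∃ C : ℝ, 0 < C ∧ ∀ X Y : ℝ, 1 ≤ X → 1 ≤ Y →
    ∀ (T S : Finset M) (c : M → ℂ), (∀ n ∈ T, Sq n ∧ (N n : ℝ) ≤ Y) →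
      (∀ k ∈ T, ∀ l ∈ T, cm k = cm l) → (∀ v ∈ S, Squarefree v ∧ (N v : ℝ) ≤ X) →
      ∑ v ∈ S, ‖∑ n ∈ T, c n * χ n v‖ ^ 2 ≤
        C * (X * Y) ^ ε * (X + Y ^ (2 : ℝ)) * ∑ n ∈ T, ‖c n‖ ^ 2 := by
  classical
  have : Nontrivial M := ⟨⟨1, 0, one_ne_zero'⟩⟩
  obtain ⟨c0, c1, hc0, hc1, hlow⟩ := Rad.Th_lower (M := M)
  have hη : 0 < ε / 5 := by positivity
  obtain ⟨C1, hC1, h1⟩ := tsum_gr_le M (σ := 1 + ε) (by linarith)
  obtain ⟨C2, hC2, h2⟩ := offdiag hχ hη hc0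
  obtain ⟨C3, hC3, h3⟩ := card_Hn_le M hη
  refine ⟨c1⁻¹ * (1 + C1 * c0⁻¹ ^ (1 + ε) + C2 * C3), by positivity,
    fun X Y hX hY T S c hT hc hS => ?_⟩
  have hX0 : 0 < X := by linarith
  have hY0 : 0 < Y := by linarith
  set A : ℝ := X / c0 with hA
  have hA0 : 0 < A := by positivity
  have hAc : 1 ≤ A * c0 := by rw [hA, div_mul_cancel₀ _ hc0.ne']; exact hX
  set F : M → ℂ := fun v => ∑ n ∈ T, c n * χ n v with hF
  set G : M → M → ℂ := fun k l => ∑' x : M, (χ k x * χ l x) * (gr A x : ℂ) with hG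
  have hχ1 : ∀ k ∈ T, ∀ l ∈ T, ∀ x, ‖χ k x * χ l x‖ ≤ 1 := fun k hk l hl x => by
    rw [norm_mul]
    exact mul_le_one₀ (norm_le_one hχ (hT k hk).1 x) (norm_nonneg _) (norm_le_one hχ (hT l hl).1 x)
  have e1 : ∀ x, ((‖F x‖ ^ 2 * gr A x : ℝ) : ℂ) =
      ∑ k ∈ T, ∑ l ∈ T, (c k * conj (c l)) * ((χ k x * χ l x) * (gr A x : ℂ)) := by
    intro x
    push_cast
    rw [← Complex.mul_conj', hF]
    simp only
    rw [map_sum, sum_mul_sum, sum_mul]
    refine sum_congr rfl fun k _ => ?_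
    rw [sum_mul]
    refine sum_congr rfl fun l hl => ?_
    rw [map_mul, conj_chi hχ (hT l hl).1]
    ring
  have e2 : HasSum (fun x => ((‖F x‖ ^ 2 * gr A x : ℝ) : ℂ))
      (∑ k ∈ T, ∑ l ∈ T, (c k * conj (c l)) * G k l) := by
    simp only [e1]
    exact hasSum_sum fun k hk => hasSum_sum fun l hl =>
      (summable_gr hA0 (hχ1 k hk l hl)).hasSum.mul_left _
  have e3 : Summable fun x => ‖F x‖ ^ 2 * gr A x := Complex.summable_ofReal.1 e2.summable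
  have e4 : c1 * ∑ v ∈ S, ‖F v‖ ^ 2 ≤ ‖∑ k ∈ T, ∑ l ∈ T, (c k * conj (c l)) * G k l‖ := by
    rw [← e2.tsum_eq, ← Complex.ofReal_tsum, Complex.norm_real, mul_sum]
    refine le_trans ?_ (le_abs_self _)
    refine le_trans (sum_le_sum fun v hv => ?_)
      (e3.sum_le_tsum S fun x _ => mul_nonneg (by positivity) (gr_nonneg hA0 x))
    have hv0 := (hS v hv).1.ne_zero
    rw [mul_comm, gr, if_neg hv0]
    gcongr
    refine hlow _ (div_pos (N_pos' hv0) hA0) ?_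
    rw [div_le_iff₀ hA0, mul_comm, hA, div_mul_cancel₀ _ hc0.ne']
    exact (hS v hv).2
  set B1 : ℝ := 1 + C1 * A ^ (1 + ε) with hB1
  set B2 : ℝ := C2 * (Y ^ (ε / 5)) ^ 4 * Y with hB2
  have hB20 : 0 ≤ B2 := by positivity
  have e5 : ∀ k ∈ T, ∀ l ∈ T, ‖(c k * conj (c l)) * G k l‖ ≤
      (if k = l then B1 * ‖c k‖ ^ 2 else 0) + B2 * ((‖c k‖ ^ 2 + ‖c l‖ ^ 2) / 2) := by
    intro k hk l hl
    rw [norm_mul, norm_mul, Complex.norm_conj]
    split_ifs with h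
    · subst h
      have a1 : ‖G k k‖ ≤ B1 := (h1 A hA0 _ (hχ1 k hk k hk)).trans (by
        rw [hB1]; gcongr; exact hχ1 k hk k hk 0)
      have a2 : 0 ≤ B2 * ((‖c k‖ ^ 2 + ‖c k‖ ^ 2) / 2) := by positivity
      have a3 : ‖c k‖ * ‖c k‖ * ‖G k k‖ ≤ ‖c k‖ * ‖c k‖ * B1 := by gcongr
      nlinarith
    · have a1 : ‖G k l‖ ≤ B2 := h2 A Y k l hAc hY (hT k hk).1 (hT l hl).1 (hT k hk).2 (hT l hl).2
        (hc k hk l hl) h
      have a2 : ‖c k‖ * ‖c l‖ ≤ (‖c k‖ ^ 2 + ‖c l‖ ^ 2) / 2 := by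
        nlinarith [sq_nonneg (‖c k‖ - ‖c l‖)]
      rw [zero_add, mul_comm B2]
      gcongr
  have e6 : ‖∑ k ∈ T, ∑ l ∈ T, (c k * conj (c l)) * G k l‖ ≤
      (B1 + B2 * T.card) * ∑ n ∈ T, ‖c n‖ ^ 2 := by
    refine (norm_sum_le_of_le _ fun k hk => norm_sum_le_of_le _ (e5 k hk)).trans (le_of_eq ?_)
    simp only [sum_add_distrib, sum_ite_eq, ← mul_sum, ← sum_div, sum_const, nsmul_eq_mul]
    rw [sum_congr rfl fun k hk => if_pos hk, ← mul_sum]
    ring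
  have e7 : (T.card : ℝ) ≤ C3 * Y ^ (1 + ε / 5) := by
    refine le_trans ?_ (h3 Y hY0.le)
    exact_mod_cast card_le_card fun n hn => mem_Hn.2 ⟨(hT n hn).2, (hT n hn).1.ne_zero⟩
  have hXY : 1 ≤ (X * Y) ^ ε := Real.one_le_rpow (by nlinarith) hε.le
  have hY2 : 0 ≤ Y ^ (2 : ℝ) := by positivity
  have e8 : B2 * T.card ≤ C2 * C3 * ((X * Y) ^ ε * (X + Y ^ (2 : ℝ))) := by
    have a1 : Y ^ ε = (Y ^ (ε / 5)) ^ 5 := by
      rw [← Real.rpow_natCast, ← Real.rpow_mul hY0.le]; congr 1; push_cast; ring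
    have a2 : Y ^ ε ≤ (X * Y) ^ ε :=
      Real.rpow_le_rpow hY0.le (le_mul_of_one_le_left hY0.le hX) hε.le
    calc B2 * T.card ≤ B2 * (C3 * Y ^ (1 + ε / 5)) := by gcongr
      _ = C2 * C3 * (Y ^ ε * Y ^ (2 : ℝ)) := by
          rw [hB2, Real.rpow_add hY0, Real.rpow_one, a1, Real.rpow_two]; ring
      _ ≤ _ := by gcongr; linarith
  have e9 : B1 ≤ (1 + C1 * c0⁻¹ ^ (1 + ε)) * ((X * Y) ^ ε * (X + Y ^ (2 : ℝ))) := by
    have a2 : X ^ ε ≤ (X * Y) ^ ε :=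
      Real.rpow_le_rpow hX0.le (le_mul_of_one_le_right hX0.le hY) hε.le
    have a3 : A ^ (1 + ε) = c0⁻¹ ^ (1 + ε) * (X ^ ε * X) := by
      rw [hA, div_eq_mul_inv, Real.mul_rpow hX0.le (by positivity), Real.rpow_add hX0,
        Real.rpow_one]
      ring
    have a4 : X ^ ε * X ≤ (X * Y) ^ ε * (X + Y ^ (2 : ℝ)) := by gcongr; linarith
    have a5 : 1 ≤ (X * Y) ^ ε * (X + Y ^ (2 : ℝ)) := one_le_mul_of_one_le_of_one_le hXY (by linarith)
    rw [hB1, a3, add_mul, one_mul, mul_assoc]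
    gcongr
  rw [← mul_le_mul_iff_of_pos_left hc1]
  refine e4.trans (e6.trans ?_)
  rw [← mul_assoc, ← mul_assoc, ← mul_assoc, ← mul_assoc, mul_inv_cancel₀ hc1.ne', one_mul]
  gcongr
  nlinarith

/-- the starting point of the recursion -/
theorem hyp_two (hχ : QSym χ) : Hyp χ 2 := by
  classical
  intro ε hε
  obtain ⟨C, hC, h⟩ := base_cls hχ hε
  have hJ := nJ_nonneg (O := M)
  refine ⟨(nJ M + 1) * C, by positivity, fun X Y hX hY T S c hT hS => ?_⟩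
  have hX0 : 0 < X := by linarith
  have hY0 : 0 < Y := by linarith
  refine (split_classes univ T S cm (fun _ _ => mem_univ _) χ c
    (B := C * (X * Y) ^ ε * (X + Y ^ (2 : ℝ))) fun i _ => h X Y hX hY _ S c
      (fun n hn => hT n (mem_filter.1 hn).1)
      (fun k hk l hl => by rw [(mem_filter.1 hk).2, (mem_filter.1 hl).2]) hS).trans ?_
  rw [card_univ]
  gcongr ?_ * _
  have : 0 ≤ C * (X * Y) ^ ε * (X + Y ^ (2 : ℝ)) := by positivity
  have e : (Fintype.card (J M) : ℝ) = nJ M := rfl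
  rw [e]
  nlinarith

/-- the large sieve from the Poisson step in one class -/
theorem qlsMod_of (hA : AllP M) (hχ : QSym χ)
    (h : ∀ ξ : ℝ, 1 ≤ ξ → ξ ≤ 2 → HypD χ ξ → StepC χ ξ) : QLSmod χ :=
  qls_mod_of_hyp (hyp_one hA hχ (hyp_two hχ) (step_of_stepC h))

end Vale.Agent.P016Z.QLS.B
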