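import Vale.Agent.P016Z.Ab.Wt
import Vale.Agent.P016Z.Ab.Rad

/-!
P016, block QLS: divisor sums and the decomposition `x = v u²`.
-/

namespace Vale.Agent.P016Z.QLS

open Vale.Agent.P016Z.Ab
open Finset
open scoped Classical

set_option linter.unusedSectionVars false

variable {M : Type} [CommMonoidWithZero M] [UniqueFactorizationMonoid M] [Ar M] [Rad M]

omit [UniqueFactorizationMonoid M] [Rad M] in
scoped instance nontriv : Nontrivial M := ⟨⟨1, 0, one_ne_zero'⟩⟩

/-! ### divisor sums -/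

theorem sum_D_coprime : ∀ a : M, Prim a → Squarefree a → ∀ b : M, Prim b → IsRelPrime a b →
    ∀ Φ : M → ℂ, ∑ d ∈ D (a * b), Φ d = ∑ d₁ ∈ D a, ∑ d₂ ∈ D b, Φ (d₁ * d₂) := by
  refine sf_induction ?_ ?_
  · intro b _ _ Φ
    rw [one_mul, D_one, sum_singleton]
    simp only [one_mul]
  · intro p k hp hpp hk hsk hc ih b hb hab Φ
    have hpb : IsRelPrime p b := hab.of_mul_left_left
    have hkb : IsRelPrime k b := hab.of_mul_left_right
    rw [mul_assoc, sum_D_mul hp hpp (hk.mul hb) (hc.mul_right hpb), ih b hb hkb,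
      ih b hb hkb (fun d => Φ (p * d)), sum_D_mul hp hpp hk hc]
    simp only [mul_assoc]

/-- splitting the divisors of `δ` according to `v` -/
theorem sum_D_split (v : M) : ∀ δ : M, Prim δ → Squarefree δ → ∀ Φ : M → ℂ,
    ∑ d ∈ D δ, Φ d = ∑ d ∈ D δ, ∑ g ∈ D δ,
      if d ∣ v ∧ IsRelPrime g v then Φ (d * g) else 0 := by
  refine sf_induction ?_ ?_
  · intro Φ
    rw [D_one, sum_singleton, sum_singleton, sum_singleton, if_pos ⟨one_dvd _, isRelPrime_one_left⟩,
      one_mul]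
  · intro p k hp hpp hk hsk hc ih Φ
    rw [sum_D_mul hp hpp hk hc, ih Φ, ih (fun d => Φ (p * d)), sum_D_mul hp hpp hk hc]
    simp only [sum_D_mul hp hpp hk hc]
    rw [← sum_add_distrib, ← sum_add_distrib]
    refine sum_congr rfl fun d hd => ?_
    rw [← sum_add_distrib, ← sum_add_distrib, ← sum_add_distrib, ← sum_add_distrib]
    refine sum_congr rfl fun g _ => ?_
    rw [mem_D hk.ne_zero] at hd
    have hcd : IsRelPrime p d := hc.of_dvd_right hd.2
    have h4 : p * d ∣ v ↔ p ∣ v ∧ d ∣ v :=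
      ⟨fun h => ⟨(Dvd.intro _ rfl).trans h, (Dvd.intro_left _ rfl).trans h⟩,
        fun h => hcd.mul_dvd h.1 h.2⟩
    have e1 : d * (p * g) = p * (d * g) := mul_left_comm _ _ _
    have e2 : p * d * g = p * (d * g) := mul_assoc _ _ _
    simp only [h4, IsRelPrime.mul_left_iff, e1, e2]
    by_cases ha : p ∣ v
    · have : ¬ IsRelPrime p v := fun h => hpp.not_isUnit (h dvd_rfl ha)
      simp [ha, this]
    · have : IsRelPrime p v := (hpp.irreducible.isRelPrime_iff_not_dvd).2 ha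
      simp [ha, this]

theorem cop_mul_left (a b x : M) : cop (a * b) x = cop a x * cop b x := by
  unfold cop
  rw [IsRelPrime.mul_right_iff]
  by_cases h1 : IsRelPrime x a <;> by_cases h2 : IsRelPrime x b <;> simp [h1, h2]

theorem cop_sq (m x : M) : cop m x * cop m x = cop m x := by
  unfold cop
  split_ifs <;> simp

theorem cop_mul {m u : M} (hu : IsRelPrime u m) (x : M) : cop m (u * x) = cop m x := by
  rw [cop_mul_right, cop, if_pos hu, one_mul]

/-! ### the decomposition `x = v u²` -/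

theorem exists_sq_decomp : ∀ x : M, x ≠ 0 → ∃ v u : M, Squarefree v ∧ u ≠ 0 ∧ x = v * u ^ 2 := by
  suffices H : ∀ n : ℕ, ∀ x : M, N x = n → x ≠ 0 →
      ∃ v u : M, Squarefree v ∧ u ≠ 0 ∧ x = v * u ^ 2 from fun x hx => H _ x rfl hx
  intro n
  induction n using Nat.strong_induction_on with
  | _ n ih =>
    intro x hn hx
    by_cases hs : Squarefree x
    · exact ⟨x, 1, hs, one_ne_zero', by rw [one_pow, mul_one]⟩
    · unfold Squarefree at hs
      push Not at hs
      obtain ⟨y, ⟨z, rfl⟩, hy⟩ := hs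
      have hy0 : y ≠ 0 := by rintro rfl; simp at hx
      have hz0 : z ≠ 0 := by rintro rfl; simp at hx
      have h1 : 1 < N y := by
        have h0 := Ab.N_pos hy0
        have h1 : N y ≠ 1 := fun h => hy (isUnit_iff_N.2 h)
        omega
      have h2 := Ab.N_pos hz0
      obtain ⟨v, u, hv, hu, rfl⟩ := ih (N z) (by
        rw [← hn, N_mul, N_mul]
        nlinarith [Nat.mul_le_mul h1.le h1.le]) z rfl hz0
      exact ⟨v, u * y, hv, mul_ne_zero hu hy0, by simp only [pow_two]; ac_rfl⟩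

theorem sq_decomp_dvd {v u v' u' : M} (hv' : Squarefree v') (hu : u ≠ 0)
    (h : v * u ^ 2 = v' * u' ^ 2) : u ∣ u' := by
  obtain ⟨a, b, g, hab, rfl, rfl⟩ := UniqueFactorizationMonoid.exists_reduced_factors u hu u'
  have hg0 : g ≠ 0 := left_ne_zero_of_mul hu
  have h1 : v * a ^ 2 = v' * b ^ 2 := by
    apply mul_left_cancel₀ (pow_ne_zero 2 hg0)
    calc g ^ 2 * (v * a ^ 2) = v * (g * a) ^ 2 := by rw [mul_pow, mul_left_comm]
      _ = v' * (g * b) ^ 2 := h
      _ = _ := by rw [mul_pow, mul_left_comm]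
  have h2 : a * a ∣ v' := by
    have h3 : IsRelPrime (a ^ 2) (b ^ 2) := hab.pow
    have h4 : a ^ 2 ∣ v' * b ^ 2 := ⟨v, by rw [← h1, mul_comm]⟩
    rw [← sq]
    exact h3.dvd_of_dvd_mul_right h4
  exact mul_dvd_mul_left g (hv' a h2).dvd

theorem finite_units : Finite Mˣ := by
  refine Finite.of_injective (β := (Hn M 1 : Finset M))
    (fun u => ⟨(u : M), by rw [mem_Hn, isUnit_iff_N.1 u.isUnit]; simp⟩) ?_
  intro u v h
  exact Units.ext (congrArg Subtype.val h)

variable (M) in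
/-- the number of units -/
noncomputable def w6 : ℝ := Nat.card Mˣ

theorem w6_nonneg : 0 ≤ w6 M := by unfold w6; positivity

/-- a chosen decomposition -/
noncomputable def dec (x : M) : M × M :=
  if h : x = 0 then (0, 1) else
    ((exists_sq_decomp x h).choose, (exists_sq_decomp x h).choose_spec.choose)

theorem dec_spec {x : M} (h : x ≠ 0) :
    Squarefree (dec x).1 ∧ (dec x).2 ≠ 0 ∧ x = (dec x).1 * (dec x).2 ^ 2 := by
  rw [dec, dif_neg h]
  exact (exists_sq_decomp x h).choose_spec.choose_spec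

theorem dec_zero : dec (0 : M) = (0, 1) := by rw [dec, dif_pos rfl]

theorem dec_snd_ne (x : M) : (dec x).2 ≠ 0 := by
  by_cases h : x = 0
  · rw [h, dec_zero]; exact one_ne_zero'
  · exact (dec_spec h).2.1

theorem dec_mul (x : M) : (dec x).1 * (dec x).2 ^ 2 = x := by
  by_cases h : x = 0
  · rw [h, dec_zero]; simp
  · exact (dec_spec h).2.2.symm

/-- the parametrisation of the pairs v, u -/
noncomputable def phi (p : M × Mˣ) : M × M :=
  ((dec p.1).1 * ((p.2⁻¹ : Mˣ) : M) ^ 2, (dec p.1).2 * p.2)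

theorem phi_mul (p : M × Mˣ) : (phi p).1 * (phi p).2 ^ 2 = p.1 := by
  have h1 : ((p.2⁻¹ : Mˣ) : M) * p.2 = 1 := Units.inv_mul p.2
  calc (phi p).1 * (phi p).2 ^ 2
      = (dec p.1).1 * (dec p.1).2 ^ 2 * (((p.2⁻¹ : Mˣ) : M) * p.2) ^ 2 := by
        simp only [phi, pow_two]; ac_rfl
    _ = p.1 := by rw [h1, dec_mul, one_pow, mul_one]

theorem phi_injective : Function.Injective (phi (M := M)) := by
  intro p q h
  have h1 : p.1 = q.1 := by rw [← phi_mul p, ← phi_mul q, h]
  have h2 : (phi p).2 = (phi q).2 := by rw [h]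
  simp only [phi] at h2
  rw [h1] at h2
  exact Prod.ext h1 (Units.ext (mul_left_cancel₀ (dec_snd_ne _) h2))

theorem phi_surj {v u : M} (hv : Squarefree v) (hu : u ≠ 0) : ∃ p, phi p = (v, u) := by
  have hx : v * u ^ 2 ≠ 0 := mul_ne_zero hv.ne_zero (pow_ne_zero 2 hu)
  obtain ⟨h1, h2, h3⟩ := dec_spec hx
  have d1 := sq_decomp_dvd h1 hu h3
  have d2 := sq_decomp_dvd hv h2 h3.symm
  obtain ⟨ε, hε⟩ := associated_of_dvd_dvd d2 d1
  refine ⟨(v * u ^ 2, ε), Prod.ext ?_ hε⟩
  have h4 := phi_mul (v * u ^ 2, ε)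
  have h5 : (phi (v * u ^ 2, ε)).2 = u := hε
  rw [h5] at h4
  exact mul_right_cancel₀ (pow_ne_zero 2 hu) h4

/-- the function on pairs attached to `F` -/
noncomputable def pr (F : M → ℂ) (p : M × M) : ℂ :=
  if Squarefree p.1 ∧ p.2 ≠ 0 then F (p.1 * p.2 ^ 2) else 0

theorem pr_phi (F : M → ℂ) (p : M × Mˣ) : pr F (phi p) = (if p.1 = 0 then 0 else F p.1) * 1 := by
  rw [mul_one, pr, phi_mul]
  by_cases h : p.1 = 0
  · rw [if_pos h, if_neg]
    rintro ⟨h1, -⟩
    apply h1.ne_zero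
    simp only [phi]
    rw [h, dec_zero, zero_mul]
  · rw [if_neg h, if_pos]
    refine ⟨?_, mul_ne_zero (dec_snd_ne _) p.2.ne_zero⟩
    simp only [phi]
    have : Associated (dec p.1).1 ((dec p.1).1 * ((p.2⁻¹ : Mˣ) : M) ^ 2) :=
      ⟨p.2⁻¹ ^ 2, by simp⟩
    exact this.squarefree_iff.1 (dec_spec h).1

theorem summable_ite_zero {F : M → ℂ} (hF : Summable F) :
    Summable fun x : M => if x = 0 then (0 : ℂ) else F x := by
  refine Summable.of_norm_bounded hF.norm fun x => ?_
  split_ifs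
  · rw [norm_zero]; exact norm_nonneg _
  · exact le_rfl

/-- **every nonzero `x` is `v u²` in `w6` ways** -/
theorem hasSum_pr {F : M → ℂ} (hF : Summable F) :
    HasSum (pr F) (((w6 M) : ℂ) * ∑' x : M, if x = 0 then 0 else F x) := by
  have := finite_units (M := M)
  rw [← phi_injective.hasSum_iff]
  · have h1 := (summable_ite_zero hF).norm
    have h2 : Summable fun _ : Mˣ => ‖(1 : ℂ)‖ := Summable.of_finite
    have h3 := summable_mul_of_summable_norm h1 h2
    have h4 := tsum_mul_tsum_of_summable_norm h1 h2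
    have h5 : (∑' _ : Mˣ, (1 : ℂ)) = ((w6 M) : ℂ) := by
      rw [tsum_const, w6]; simp
    rw [h5, mul_comm] at h4
    rw [h4]
    have h6 : pr F ∘ phi = fun z : M × Mˣ => (if z.1 = 0 then 0 else F z.1) * 1 :=
      funext (pr_phi F)
    rw [h6]
    exact h3.hasSum
  · rintro ⟨v, u⟩ hp
    rw [pr, if_neg]
    rintro ⟨h1, h2⟩
    exact hp (phi_surj h1 h2)

end Vale.Agent.P016Z.QLS
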