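import Vale.Agent.P016Z.QLS.Sep

/-!
P016, block QLS: bounds for the two sides of the pair identity.
-/

namespace Vale.Agent.P016Z.QLS

open Vale.Agent.P016Z.Ab
open Finset
open scoped ComplexConjugate
open scoped Classical

set_option linter.unusedSectionVars false

variable {M : Type} [CommMonoidWithZero M] [UniqueFactorizationMonoid M] [Ar M] [Rad M]

/-! ### dyadic levels -/

variable (M) in
/-- one dyadic level -/
noncomputable def Lv (j : ℕ) : Finset M :=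
  (Hn M ((2 : ℝ) ^ j)).filter (fun h => (2 : ℝ) ^ j < 2 * N h)

theorem mem_Lv {j : ℕ} {h : M} :
    h ∈ Lv M j ↔ ((N h : ℝ) ≤ 2 ^ j ∧ h ≠ 0) ∧ (2 : ℝ) ^ j < 2 * N h := by
  rw [Lv, Finset.mem_filter, mem_Hn]

theorem Lv_subset (j : ℕ) : Lv M j ⊆ Hn M ((2 : ℝ) ^ j) := Finset.filter_subset _ _

theorem sum_Hn_le_Lv {g : M → ℝ} (hg : ∀ h, 0 ≤ g h) (J : ℕ) :
    ∑ h ∈ Hn M ((2 : ℝ) ^ J), g h ≤ ∑ j ∈ Finset.range (J + 1), ∑ h ∈ Lv M j, g h := by
  classical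
  induction J with
  | zero =>
    rw [Finset.sum_range_one]
    refine Finset.sum_le_sum_of_subset_of_nonneg (fun h hh => ?_) fun h _ _ => hg h
    rw [mem_Hn] at hh
    rw [mem_Lv]
    refine ⟨hh, ?_⟩
    have : (1 : ℝ) ≤ N h := by exact_mod_cast Ab.N_pos hh.2
    rw [pow_zero]; linarith
  | succ J ih =>
    rw [Finset.sum_range_succ]
    refine le_trans ?_ (add_le_add_left ih _)
    have hsub : Hn M ((2 : ℝ) ^ (J + 1)) ⊆ Hn M ((2 : ℝ) ^ J) ∪ Lv M (J + 1) := by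
      intro h hh
      rw [mem_Hn] at hh
      rw [Finset.mem_union, mem_Hn, mem_Lv]
      by_cases h1 : (N h : ℝ) ≤ 2 ^ J
      · exact Or.inl ⟨h1, hh.2⟩
      · push Not at h1
        refine Or.inr ⟨hh, ?_⟩
        rw [pow_succ]; linarith
    calc ∑ h ∈ Hn M ((2 : ℝ) ^ (J + 1)), g h ≤ ∑ h ∈ Hn M ((2 : ℝ) ^ J) ∪ Lv M (J + 1), g h :=
          Finset.sum_le_sum_of_subset_of_nonneg hsub fun h _ _ => hg h
      _ ≤ ∑ h ∈ Hn M ((2 : ℝ) ^ J), g h + ∑ h ∈ Lv M (J + 1), g h := by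
          rw [← Finset.sum_union_inter]
          have : 0 ≤ ∑ h ∈ Hn M ((2 : ℝ) ^ J) ∩ Lv M (J + 1), g h := Finset.sum_nonneg fun h _ => hg h
          linarith

theorem norm_tsum_le_levels {G : M → ℂ} (hG : Summable G) {w : ℕ → ℝ} {S : ℝ}
    (hw : ∀ j, ∑ h ∈ Lv M j, ‖G h‖ ≤ w j) (hS : ∀ J, ∑ j ∈ Finset.range J, w j ≤ S) :
    ‖∑' h : M, if h = 0 then 0 else G h‖ ≤ S := by
  classical
  have hG' : Summable fun h : M => ‖(if h = 0 then 0 else G h : ℂ)‖ := by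
    refine Summable.of_nonneg_of_le (fun _ => norm_nonneg _) (fun h => ?_) hG.norm
    split_ifs
    · rw [norm_zero]; exact norm_nonneg _
    · exact le_rfl
  refine (norm_tsum_le_tsum_norm hG').trans ?_
  refine Real.tsum_le_of_sum_le (fun _ => norm_nonneg _) fun F => ?_
  have h1 : ∑ h ∈ F, ‖(if h = 0 then 0 else G h : ℂ)‖ = ∑ h ∈ F.filter (fun h => h ≠ 0), ‖G h‖ := by
    rw [Finset.sum_filter]
    refine Finset.sum_congr rfl fun h _ => ?_
    by_cases h0 : h = 0 <;> simp [h0]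
  rw [h1]
  set J : ℕ := ∑ h ∈ F, N h with hJ
  have hsub : F.filter (fun h => h ≠ 0) ⊆ Hn M ((2 : ℝ) ^ J) := by
    intro h hh
    rw [Finset.mem_filter] at hh
    rw [mem_Hn]
    refine ⟨?_, hh.2⟩
    have h2 : N h ≤ J := Finset.single_le_sum (f := fun h => N h) (fun _ _ => Nat.zero_le _) hh.1
    have h3 : J < 2 ^ J := Nat.lt_two_pow_self
    exact_mod_cast (h2.trans h3.le)
  calc ∑ h ∈ F.filter (fun h => h ≠ 0), ‖G h‖ ≤ ∑ h ∈ Hn M ((2 : ℝ) ^ J), ‖G h‖ :=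
        Finset.sum_le_sum_of_subset_of_nonneg hsub fun _ _ _ => norm_nonneg _
    _ ≤ ∑ j ∈ Finset.range (J + 1), ∑ h ∈ Lv M j, ‖G h‖ := sum_Hn_le_Lv (fun _ => norm_nonneg _) J
    _ ≤ ∑ j ∈ Finset.range (J + 1), w j := Finset.sum_le_sum fun j _ => hw j
    _ ≤ S := hS _

theorem rpow_two_le {σ R v : ℝ} (hσ : 0 < σ) (hR : 0 < R) (h1 : R / 2 < v) (h2 : v ≤ R) :
    v ^ (2 * σ - 1) ≤ 2 * R ^ (2 * σ - 1) := by
  have hv : 0 < v := lt_trans (by positivity) h1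
  rcases le_total 0 (2 * σ - 1) with h | h
  · calc v ^ (2 * σ - 1) ≤ R ^ (2 * σ - 1) := Real.rpow_le_rpow hv.le h2 h
      _ ≤ 2 * R ^ (2 * σ - 1) := by
        have : 0 < R ^ (2 * σ - 1) := by positivity
        linarith
  · calc v ^ (2 * σ - 1) ≤ (R / 2) ^ (2 * σ - 1) :=
          Real.rpow_le_rpow_of_nonpos (by positivity) h1.le h
      _ = R ^ (2 * σ - 1) * 2 ^ (1 - 2 * σ) := by
          rw [Real.div_rpow hR.le (by norm_num), div_eq_mul_inv, ← Real.rpow_neg (by norm_num)]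
          congr 2; ring
      _ ≤ R ^ (2 * σ - 1) * 2 ^ (1 : ℝ) := by
          gcongr
          · norm_num
          · linarith
      _ = 2 * R ^ (2 * σ - 1) := by rw [Real.rpow_one]; ring

theorem geom_levels {ε X : ℝ} (hε : 0 < ε) (hX : 0 < X) (J : ℕ) :
    ∑ j ∈ Finset.range J, (X / 2 ^ j) ^ ε ≤ X ^ ε * (1 - (2 : ℝ) ^ (-ε))⁻¹ := by
  have h2 : (2 : ℝ) ^ (-ε) < 1 := Real.rpow_lt_one_of_one_lt_of_neg (by norm_num) (by linarith)
  have h1 : ∀ j ∈ Finset.range J, (X / 2 ^ j) ^ ε = X ^ ε * ((2 : ℝ) ^ (-ε)) ^ j := by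
    intro j _
    rw [Real.div_rpow hX.le (by positivity), div_eq_mul_inv, ← Real.rpow_natCast 2 j,
      ← Real.rpow_mul (by norm_num), ← Real.rpow_neg (by norm_num), ← Real.rpow_natCast,
      ← Real.rpow_mul (by norm_num)]
    congr 2; ring
  rw [Finset.sum_congr rfl h1, ← Finset.mul_sum]
  gcongr
  have h3 := (summable_geometric_of_lt_one (by positivity) h2).sum_le_tsum (Finset.range J)
    fun _ _ => by positivity
  rwa [tsum_geometric_of_lt_one (by positivity) h2] at h3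

/-- the hypothesis of the recursion -/
def HypC (χ : M → M → ℂ) (C₀ β γ ξ : ℝ) : Prop :=
  ∀ X Y : ℝ, 1 ≤ X → 1 ≤ Y → LSq χ X Y (C₀ * X ^ β * Y ^ γ * (X ^ ξ + Y))

/-! ### four inequalities between powers -/

section num

variable {A K V y r R : ℝ}

theorem num_a {η : ℝ} (hη : 0 ≤ η) (hV : 1 ≤ V) (hy : 0 < y) (hyK : y ≤ K) (hA : 0 ≤ A)
    (hrR : r * R ≤ A) : r * (y / V) ^ η * R ≤ A * K ^ η := by
  have h1 : (y / V) ^ η ≤ K ^ η :=
    Real.rpow_le_rpow (by positivity) ((div_le_self hy.le hV).trans hyK) hη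
  calc r * (y / V) ^ η * R = (r * R) * (y / V) ^ η := by ring
    _ ≤ A * K ^ η := mul_le_mul hrR h1 (by positivity) hA

theorem num_b {η ξ : ℝ} (hη : 0 ≤ η) (hξ : 1 ≤ ξ) (hξ2 : ξ ≤ 2) (hV : 1 ≤ V) (hK : 1 ≤ K)
    (hVK : V ≤ 2 * K) (hy : 0 < y) (hr : 0 < r) (hA : 1 ≤ A) (h : r ^ 2 * y = A)
    (hyA : 1 ≤ y * A) :
    r * (y / V) ^ (1 / 2 - η) * V ^ ξ ≤ 4 * (Real.sqrt A * K ^ (ξ - 1 / 2)) * (2 * K * A) ^ η := by
  have hV0 : 0 < V := by linarith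
  have hK0 : 0 < K := by linarith
  have hA0 : 0 < A := by linarith
  have l1 : 2 * Real.log r + Real.log y = Real.log A := by
    rw [← h, Real.log_mul (by positivity) hy.ne', Real.log_pow]; norm_num
  have l2 : 0 ≤ Real.log y + Real.log A := by
    rw [← Real.log_mul hy.ne' hA0.ne']; exact Real.log_nonneg hyA
  have l3 : Real.log V ≤ Real.log 2 + Real.log K := by
    rw [← Real.log_mul (by norm_num) hK0.ne']; exact Real.log_le_log hV0 hVK
  have l4 : 0 ≤ Real.log 2 := Real.log_nonneg (by norm_num)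
  have e4 : (4 : ℝ) = Real.exp (2 * Real.log 2) := by
    rw [show 2 * Real.log 2 = Real.log (2 ^ 2) by rw [Real.log_pow]; norm_num,
      Real.exp_log (by norm_num)]; norm_num
  rw [Real.sqrt_eq_rpow, Real.rpow_def_of_pos (div_pos hy hV0), Real.rpow_def_of_pos hV0,
    Real.rpow_def_of_pos hA0, Real.rpow_def_of_pos hK0,
    Real.rpow_def_of_pos (by positivity : 0 < 2 * K * A), Real.log_div hy.ne' hV0.ne',
    Real.log_mul (by positivity) hA0.ne', Real.log_mul (by norm_num) hK0.ne', e4]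
  conv_lhs => rw [← Real.exp_log hr]
  simp only [← Real.exp_add]
  rw [Real.exp_le_exp]
  nlinarith [mul_nonneg hη l2, mul_nonneg hη (sub_nonneg.2 l3),
    mul_nonneg (by linarith : 0 ≤ ξ - 1 / 2) (sub_nonneg.2 l3),
    mul_nonneg (by linarith : 0 ≤ 5 / 2 - ξ) l4]

theorem num_c {β : ℝ} (hβ2 : β ≤ 2) (hK : 1 ≤ K) (hKV : K ≤ V) (hy : 0 < y) (hyK : y ≤ K)
    (hA : 0 ≤ A) (hrR : r * R ≤ A) :
    r * (y / V) ^ (5 : ℝ) * R * V ^ β ≤ A * K ^ β * (K / V) := by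
  have hK0 : 0 < K := by linarith
  have hV0 : 0 < V := by linarith
  have l1 : Real.log y ≤ Real.log K := Real.log_le_log hy hyK
  have l2 : Real.log K ≤ Real.log V := Real.log_le_log hK0 hKV
  have h1 : (y / V) ^ (5 : ℝ) * V ^ β ≤ K ^ β * (K / V) := by
    rw [Real.rpow_def_of_pos (div_pos hy hV0), Real.rpow_def_of_pos hV0,
      Real.rpow_def_of_pos hK0, Real.log_div hy.ne' hV0.ne', ← Real.exp_log (div_pos hK0 hV0),
      Real.log_div hK0.ne' hV0.ne']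
    simp only [← Real.exp_add]
    rw [Real.exp_le_exp]
    nlinarith [mul_nonneg (by linarith : 0 ≤ 4 - β) (sub_nonneg.2 l2)]
  calc r * (y / V) ^ (5 : ℝ) * R * V ^ β = (r * R) * ((y / V) ^ (5 : ℝ) * V ^ β) := by ring
    _ ≤ A * (K ^ β * (K / V)) := mul_le_mul hrR h1 (by positivity) hA
    _ = _ := by ring

theorem num_d {β ξ : ℝ} (hβ2 : β ≤ 2) (hξ2 : ξ ≤ 2) (hK : 1 ≤ K) (hKV : K ≤ V) (hy : 0 < y)
    (hyK : y ≤ K) (hr : 0 < r) (hA : 1 ≤ A) (h : r ^ 2 * y = A) :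
    r * (y / V) ^ (5 : ℝ) * V ^ ξ * V ^ β ≤
      Real.sqrt A * K ^ (ξ - 1 / 2) * K ^ β * (K / V) := by
  have hK0 : 0 < K := by linarith
  have hV0 : 0 < V := by linarith
  have hA0 : 0 < A := by linarith
  have l0 : 2 * Real.log r + Real.log y = Real.log A := by
    rw [← h, Real.log_mul (by positivity) hy.ne', Real.log_pow]; norm_num
  have l1 : Real.log y ≤ Real.log K := Real.log_le_log hy hyK
  have l2 : Real.log K ≤ Real.log V := Real.log_le_log hK0 hKV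
  rw [Real.sqrt_eq_rpow, Real.rpow_def_of_pos (div_pos hy hV0), Real.rpow_def_of_pos hV0,
    Real.rpow_def_of_pos hV0, Real.rpow_def_of_pos hA0, Real.rpow_def_of_pos hK0,
    Real.rpow_def_of_pos hK0, Real.log_div hy.ne' hV0.ne', ← Real.exp_log (div_pos hK0 hV0),
    Real.log_div hK0.ne' hV0.ne']
  conv_lhs => rw [← Real.exp_log hr]
  simp only [← Real.exp_add]
  rw [Real.exp_le_exp]
  nlinarith [mul_nonneg (by linarith : 0 ≤ 4 - ξ - β) (sub_nonneg.2 l2)]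

theorem num_e {η : ℝ} (hη : 0 ≤ η) (hη1 : η ≤ 1) (hK : 0 < K) (hKV : K ≤ V) :
    K / V ≤ (2 * K / V) ^ η := by
  have hV0 : 0 < V := by linarith
  rcases le_total 1 (2 * K / V) with h | h
  · exact ((div_le_one hV0).2 hKV).trans (Real.one_le_rpow h hη)
  · calc K / V ≤ 2 * K / V := by gcongr; linarith
      _ = (2 * K / V) ^ (1 : ℝ) := (Real.rpow_one _).symm
      _ ≤ _ := Real.rpow_le_rpow_of_exponent_ge (by positivity) h hη1

theorem num_s1 {L Cm Z β η ξ : ℝ} (hη : 0 ≤ η) (hβ : 0 ≤ β) (hβ2 : β ≤ 2) (hξ : 1 ≤ ξ)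
    (hξ2 : ξ ≤ 2) (hV : 1 ≤ V) (hK : 1 ≤ K) (hVK : V < 2 * K) (hy : 0 < y) (hyK : y ≤ K)
    (hr : 0 < r) (hR : 0 < R) (hA : 1 ≤ A) (hrR : r * R ≤ A) (h : r ^ 2 * y = A)
    (hyA : 1 ≤ y * A) (hC : 0 ≤ Cm) (hZ : 0 ≤ Z)
    (b1 : L ≤ Cm * (r * (y / V) ^ η * (V ^ ξ + R) * V ^ β * Z))
    (b2 : L ≤ Cm * (r * (y / V) ^ (1 / 2 - η) * (V ^ ξ + R) * V ^ β * Z)) :
    L ≤ 16 * Cm * ((2 * K * A) ^ η * (K ^ β * (A + Real.sqrt A * K ^ (ξ - 1 / 2)) * Z)) *
      (2 * K / V) ^ η := by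
  have hV0 : 0 < V := by linarith
  have hK0 : 0 < K := by linarith
  have hA0 : 0 < A := by linarith
  have n1 := num_a (r := r) (R := R) hη hV hy hyK hA0.le hrR
  have n2 := num_b hη hξ hξ2 hV hK hVK.le hy hr hA h hyA
  have n3 : K ^ η ≤ (2 * K * A) ^ η := Real.rpow_le_rpow hK0.le (by nlinarith) hη
  have n4 : V ^ β ≤ 4 * K ^ β := by
    calc V ^ β ≤ (2 * K) ^ β := Real.rpow_le_rpow hV0.le hVK.le hβ
      _ = 2 ^ β * K ^ β := Real.mul_rpow (by norm_num) hK0.le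
      _ ≤ 2 ^ (2 : ℝ) * K ^ β := by gcongr; norm_num
      _ = 4 * K ^ β := by norm_num
  have n5 : 1 ≤ (2 * K / V) ^ η := Real.one_le_rpow ((one_le_div hV0).2 hVK.le) hη
  have n7 : 0 ≤ (2 * K * A) ^ η := by positivity
  have n6 : A * K ^ η ≤ 4 * A * (2 * K * A) ^ η := by
    calc A * K ^ η ≤ A * (2 * K * A) ^ η := by gcongr
      _ ≤ _ := by gcongr; linarith
  have b3 : L ≤ Cm * (4 * (A + Real.sqrt A * K ^ (ξ - 1 / 2)) * (2 * K * A) ^ η * V ^ β * Z) := by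
    rcases le_total ((y / V) ^ η) ((y / V) ^ (1 / 2 - η)) with h | h
    · refine b1.trans ?_
      gcongr Cm * (?_ * V ^ β * Z)
      have : r * (y / V) ^ η * V ^ ξ ≤ r * (y / V) ^ (1 / 2 - η) * V ^ ξ := by gcongr
      linarith
    · refine b2.trans ?_
      gcongr Cm * (?_ * V ^ β * Z)
      have : r * (y / V) ^ (1 / 2 - η) * R ≤ r * (y / V) ^ η * R := by gcongr
      linarith
  calc L ≤ Cm * (4 * (A + Real.sqrt A * K ^ (ξ - 1 / 2)) * (2 * K * A) ^ η * (4 * K ^ β) * Z) :=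
        b3.trans (by gcongr)
    _ = 16 * Cm * ((2 * K * A) ^ η * (K ^ β * (A + Real.sqrt A * K ^ (ξ - 1 / 2)) * Z)) * 1 := by
        ring
    _ ≤ _ := by gcongr

theorem num_s2 {L Cm Z β η ξ : ℝ} (hη : 0 ≤ η) (hη1 : η ≤ 1) (hβ2 : β ≤ 2)
    (hξ2 : ξ ≤ 2) (hK : 1 ≤ K) (hVK : K ≤ V) (hy : 0 < y) (hyK : y ≤ K)
    (hr : 0 < r) (hA : 1 ≤ A) (hrR : r * R ≤ A) (h : r ^ 2 * y = A) (hC : 0 ≤ Cm) (hZ : 0 ≤ Z)
    (b1 : L ≤ Cm * (r * (y / V) ^ (5 : ℝ) * (V ^ ξ + R) * V ^ β * Z)) :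
    L ≤ Cm * ((2 * K * A) ^ η * (K ^ β * (A + Real.sqrt A * K ^ (ξ - 1 / 2)) * Z)) *
      (2 * K / V) ^ η := by
  have hK0 : 0 < K := by linarith
  have hV0 : 0 < V := by linarith
  have hA0 : 0 < A := by linarith
  have hKA : 1 ≤ (2 * K * A) ^ η := Real.one_le_rpow (by nlinarith) hη
  have n1 := num_c (r := r) (R := R) hβ2 hK hVK hy hyK hA0.le hrR
  have n2 := num_d hβ2 hξ2 hK hVK hy hyK hr hA h
  have n3 := num_e hη hη1 hK0 hVK
  have n4 : r * (y / V) ^ (5 : ℝ) * (V ^ ξ + R) * V ^ β ≤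
      K ^ β * (A + Real.sqrt A * K ^ (ξ - 1 / 2)) * (K / V) := by linarith
  calc L ≤ _ := b1
    _ ≤ Cm * (K ^ β * (A + Real.sqrt A * K ^ (ξ - 1 / 2)) * (2 * K / V) ^ η * Z) := by
        gcongr Cm * (?_ * Z)
        exact n4.trans (by gcongr)
    _ = Cm * (1 * (K ^ β * (A + Real.sqrt A * K ^ (ξ - 1 / 2)) * Z)) * (2 * K / V) ^ η := by ring
    _ ≤ _ := by gcongr

theorem num_f {η Cm Dc Z : ℝ} (hη : 0 < η) (hK : 1 ≤ K) (hA : 1 ≤ A) (hC : 0 ≤ Cm) (hD : 0 ≤ Dc)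
    (hZ : 0 ≤ Z) :
    Dc * (Cm * ((2 * K * A) ^ η * Z)) * ((2 * K) ^ η * (1 - (2 : ℝ) ^ (-η))⁻¹) ≤
      Cm * (1 - (2 : ℝ) ^ (-η))⁻¹ * 2 ^ (2 * η) * (Dc * ((K * A) ^ (2 * η) * Z)) := by
  have h2η : (2 : ℝ) ^ (-η) < 1 := Real.rpow_lt_one_of_one_lt_of_neg (by norm_num) (by linarith)
  have h2η' : 0 < 1 - (2 : ℝ) ^ (-η) := by linarith
  have hK0 : 0 < K := by linarith
  have hA0 : 0 < A := by linarith
  have n1 : (2 * K * A) ^ η * (2 * K) ^ η ≤ 2 ^ (2 * η) * (K * A) ^ (2 * η) := by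
    have n2 : (2 * K) ^ η ≤ (2 * K * A) ^ η :=
      Real.rpow_le_rpow (by positivity) (by nlinarith) hη.le
    calc (2 * K * A) ^ η * (2 * K) ^ η ≤ (2 * K * A) ^ η * (2 * K * A) ^ η := by gcongr
      _ = (2 * (K * A)) ^ (2 * η) := by
          rw [← Real.rpow_add (by positivity), mul_assoc]; congr 1; ring
      _ = _ := Real.mul_rpow (by norm_num) (by positivity)
  calc Dc * (Cm * ((2 * K * A) ^ η * Z)) * ((2 * K) ^ η * (1 - (2 : ℝ) ^ (-η))⁻¹)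
      = Cm * (1 - (2 : ℝ) ^ (-η))⁻¹ * ((2 * K * A) ^ η * (2 * K) ^ η) * (Dc * Z) := by ring
    _ ≤ Cm * (1 - (2 : ℝ) ^ (-η))⁻¹ * (2 ^ (2 * η) * (K * A) ^ (2 * η)) * (Dc * Z) := by gcongr
    _ = _ := by ring

end num

end Vale.Agent.P016Z.QLS

namespace Vale.Agent.P016Z.Ab.QSym

open Vale.Agent.P016Z.QLS Finset
open scoped Classical ComplexConjugate

set_option linter.unusedSectionVars false

variable {M : Type} [CommMonoidWithZero M] [UniqueFactorizationMonoid M] [Ar M] [Rad M]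

variable {χ : M → M → ℂ} (hχ : QSym χ)

include hχ

/-- the side of the arguments -/
theorem prim_bound {c₀ η : ℝ} (hη : 0 < η) (hG : MelRep (Rm M c₀) η) : ∃ C : ℝ, 0 < C ∧
    ∀ (T : Finset M) (t : M → M) (c : M → ℂ) (δ : M) (A K R B τ : ℝ), LSq χ K R B → 0 ≤ B →
      0 < A → Set.InjOn t T → (∀ k ∈ T, Sq (t k) ∧ (N (t k) : ℝ) ≤ R) → δ ≠ 0 →
      (∀ k ∈ T, ((D (t k)).card : ℝ) ≤ τ) →
      ‖∑ k ∈ T, ∑ l ∈ T, conj (c k) * c l * ∑ v ∈ SqK M K, primT χ c₀ A δ (t k) (t l) v‖ ≤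
        C * ((D δ).card * (A ^ η * (τ ^ 2 * (B * ∑ k ∈ T, ‖c k‖ ^ 2)))) := by
  obtain ⟨C, hC, hs⟩ := sep2 χ hη hG
  have hb := b0_pos
  refine ⟨C * b0 ^ (-η), by positivity, ?_⟩
  intro T t c δ A K R B τ hLS hB hA ht hT hδ hτ
  have key := hs T (SqK M K) t (fun k => conj (c k)) (fun _ => 1) (fun v => b0 * N v / A) δ K R B
    (b0 / A) τ (∑ k ∈ T, ‖c k‖ ^ 2) hLS hB ht hT (fun v hv => mem_SqK.1 hv) hδ
    (fun _ _ => one_pos) (by positivity) (fun v hv => by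
      have h1 : (1 : ℝ) ≤ N v := by
        exact_mod_cast Ab.N_pos (mem_SqK.1 hv).1.ne_zero
      rw [div_le_div_iff_of_pos_right hA]
      exact le_mul_of_one_le_right hb.le h1) hτ (le_of_eq (sum_congr rfl fun k _ => by simp))
  have e1 : ∑ k ∈ T, ∑ l ∈ T, conj (c k) * c l * ∑ v ∈ SqK M K, primT χ c₀ A δ (t k) (t l) v =
      ∑ v ∈ SqK M K, cop δ v * ∑ k ∈ T, ∑ l ∈ T, (conj (c k) * χ (t k) v) *
        conj (conj (c l) * χ (t l) v) * sv2 (Rm M c₀) δ (t k) (t l) (b0 * N v / A / (1 * 1)) := by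
    calc ∑ k ∈ T, ∑ l ∈ T, conj (c k) * c l * ∑ v ∈ SqK M K, primT χ c₀ A δ (t k) (t l) v
        = ∑ k ∈ T, ∑ v ∈ SqK M K, ∑ l ∈ T, conj (c k) * c l * primT χ c₀ A δ (t k) (t l) v := by
          refine sum_congr rfl fun k _ => ?_
          rw [sum_comm]
          exact sum_congr rfl fun l _ => mul_sum _ _ _
      _ = ∑ v ∈ SqK M K, ∑ k ∈ T, ∑ l ∈ T, conj (c k) * c l * primT χ c₀ A δ (t k) (t l) v :=
          sum_comm
      _ = _ := by
          refine sum_congr rfl fun v _ => ?_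
          rw [mul_sum]
          refine sum_congr rfl fun k _ => ?_
          rw [mul_sum]
          refine sum_congr rfl fun l hl => ?_
          rw [primT, map_mul, Complex.conj_conj, hχ.conj_eq (hT l hl).1, mul_one, div_one]
          ring
  rw [e1]
  refine (norm_sum_le _ _).trans (le_trans (sum_le_sum fun v _ => ?_) (key.trans (le_of_eq ?_)))
  · rw [norm_mul]
    exact mul_le_of_le_one_left (norm_nonneg _) (norm_cop_le _ _)
  · rw [Real.div_rpow hb.le hA.le, Real.rpow_neg hA.le, div_inv_eq_mul]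
    ring

/-- one dyadic level of the dual side -/
theorem level_bound {G : ℝ → ℝ} {σ : ℝ} (hσ : 0 < σ) (hG : MelRep G σ) : ∃ C : ℝ, 0 < C ∧
    ∀ (T S : Finset M) (t : M → M) (c : M → ℂ) (q V R B τ : ℝ), LSq χ V R B → 0 ≤ B →
      0 < q → 0 < V → 0 < R → Set.InjOn t T →
      (∀ k ∈ T, Sq (t k) ∧ (N (t k) : ℝ) ≤ R ∧ R / 2 < N (t k)) →
      (∀ v ∈ S, Squarefree v ∧ (N v : ℝ) ≤ V ∧ V < 2 * N v) →
      (∀ k ∈ T, ((D (t k)).card : ℝ) ≤ τ) →
      ∑ v ∈ S, ‖∑ k ∈ T, ∑ l ∈ T, conj (c k) * c l * dform χ G q (t k) (t l) v‖ ≤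
        C * ((R ^ 2 / q / V) ^ σ / R * (τ ^ 2 * (B * ∑ k ∈ T, ‖c k‖ ^ 2))) := by
  obtain ⟨C, hC, hs⟩ := sep2 χ hσ hG
  have hb := b0_pos
  refine ⟨C * (b0 / 2) ^ (-σ) * 2, by positivity, ?_⟩
  intro T S t c q V R B τ hLS hB hq hV hR ht hT hS hτ
  have hN : ∀ k ∈ T, (0 : ℝ) < N (t k) := fun k hk => by
    exact_mod_cast (hT k hk).1.prim.N_pos
  have key := hs T S t (fun k => conj (c k) / (Real.sqrt (N (t k)) : ℝ)) (fun k => N (t k))
    (fun v => b0 * q * N v) 1 V R B (b0 * q * (V / 2)) τ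
    (2 * R ^ (2 * σ - 1) * ∑ k ∈ T, ‖c k‖ ^ 2) hLS hB ht
    (fun k hk => ⟨(hT k hk).1, (hT k hk).2.1⟩) (fun v hv => ⟨(hS v hv).1, (hS v hv).2.1⟩)
    one_ne_zero hN (by positivity) (fun v hv => by
      have : V / 2 ≤ N v := by linarith [(hS v hv).2.2]
      gcongr) hτ (by
      rw [mul_sum]
      refine sum_le_sum fun k hk => ?_
      have pk := hN k hk
      rw [norm_div, Complex.norm_conj, Complex.norm_real, Real.norm_of_nonneg (Real.sqrt_nonneg _),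
        div_pow, Real.sq_sqrt pk.le]
      have h1 := rpow_two_le hσ hR (hT k hk).2.2 (hT k hk).2.1
      rw [Real.rpow_sub pk, Real.rpow_one] at h1
      calc ‖c k‖ ^ 2 / (N (t k) : ℝ) * (N (t k) : ℝ) ^ (2 * σ)
          = (N (t k) : ℝ) ^ (2 * σ) / (N (t k) : ℝ) * ‖c k‖ ^ 2 := by ring
        _ ≤ _ := by gcongr)
  refine le_trans (le_of_eq (sum_congr rfl fun v _ => ?_)) (key.trans (le_of_eq ?_))
  · congr 1
    refine sum_congr rfl fun k _ => sum_congr rfl fun l hl => ?_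
    rw [dform, map_mul, map_div₀, Complex.conj_conj, Complex.conj_ofReal, hχ.conj_eq (hT l hl).1]
    push_cast
    ring
  · rw [D_one, card_singleton]
    have e1 : (b0 * q * (V / 2)) ^ (-σ) = (b0 / 2) ^ (-σ) * (q * V) ^ (-σ) := by
      rw [← Real.mul_rpow (by positivity) (by positivity)]
      congr 1; ring
    have e2 : (R ^ 2 / q / V) ^ σ / R = (q * V) ^ (-σ) * R ^ (2 * σ - 1) := by
      have e0 : R ^ (2 * σ) = (R ^ 2) ^ σ := by
        rw [Real.rpow_mul hR.le]; congr 1; exact_mod_cast Real.rpow_natCast R 2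
      rw [div_div, Real.div_rpow (by positivity) (by positivity), Real.rpow_neg (by positivity),
        Real.rpow_sub hR, Real.rpow_one, e0]
      ring
    rw [e1, e2]
    push_cast
    ring

/-- the dual side -/
theorem dual_bound {c₀ η : ℝ} (hη : 0 < η) (hη4 : η ≤ 1 / 4) (hG1 : MelRep (Rm M c₀) η)
    (hG2 : MelRep (Rm M c₀) (1 / 2 - η)) (hG3 : MelRep (thq M) 5) : ∃ C : ℝ, 0 < C ∧
    ∀ (T : Finset M) (t : M → M) (c : M → ℂ) (δ d : M) (C₀ β γ ξ A K R τ : ℝ),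
      HypC χ C₀ β γ ξ → 0 ≤ C₀ → 0 ≤ β → β ≤ 2 → 1 ≤ ξ → ξ ≤ 2 → 1 ≤ A → 1 ≤ K → 1 ≤ R →
      R ^ 2 * (N d : ℝ) ^ 2 ≤ K * A → Set.InjOn t T →
      (∀ k ∈ T, Sq (t k) ∧ (N (t k) : ℝ) ≤ R ∧ R / 2 < N (t k)) → δ ≠ 0 → d ≠ 0 →
      (∀ k ∈ T, ((D (t k)).card : ℝ) ≤ τ) →
      ‖∑ k ∈ T, ∑ l ∈ T, conj (c k) * c l * ∑' v : M, dualT χ c₀ K A δ d (t k) (t l) v‖ ≤
        C * ((D δ).card * ((K * A) ^ (2 * η) * (τ ^ 2 * (C₀ * K ^ β * R ^ γ *
          (A + Real.sqrt A * K ^ (ξ - 1 / 2)) * ∑ k ∈ T, ‖c k‖ ^ 2)))) := by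
  classical
  obtain ⟨C1, hC1, h1⟩ := hχ.level_bound hη hG1
  obtain ⟨C2, hC2, h2⟩ := hχ.level_bound (by linarith) hG2
  obtain ⟨C3, hC3, h3⟩ := hχ.level_bound (by norm_num) hG3
  have h2η : (2 : ℝ) ^ (-η) < 1 := Real.rpow_lt_one_of_one_lt_of_neg (by norm_num) (by linarith)
  have h2η' : 0 < 1 - (2 : ℝ) ^ (-η) := by linarith
  refine ⟨(16 * max C1 C2 + C3) * (1 - (2 : ℝ) ^ (-η))⁻¹ * 2 ^ (2 * η), by positivity, ?_⟩
  intro T t c δ d C₀ β γ ξ A K R τ hH hC₀ hβ hβ2 hξ hξ2 hA hK hR hRK ht hT hδ hd hτ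
  have hA0 : 0 < A := by linarith
  have hK0 : 0 < K := by linarith
  have hR0 : 0 < R := by linarith
  have pd : (1 : ℝ) ≤ N d := by exact_mod_cast Ab.N_pos hd
  set q : ℝ := A / (N d : ℝ) ^ 2 with hq
  have hq0 : 0 < q := by positivity
  set y : ℝ := R ^ 2 / q with hy
  have hy0 : 0 < y := by positivity
  have hy1 : y = R ^ 2 * (N d : ℝ) ^ 2 / A := by rw [hy, hq]; field_simp
  have hyK : y ≤ K := by rw [hy1, div_le_iff₀ hA0]; exact hRK
  have hyA : 1 ≤ y * A := by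
    rw [hy1, div_mul_cancel₀ _ hA0.ne']
    exact one_le_mul_of_one_le_of_one_le (one_le_pow₀ hR) (one_le_pow₀ pd)
  set r : ℝ := A / N d / R with hr
  have hr0 : 0 < r := by positivity
  have hry : r ^ 2 * y = A := by rw [hr, hy1]; field_simp
  have hrR : r * R ≤ A := by
    rw [hr, div_mul_cancel₀ _ hR0.ne']
    exact div_le_self hA0.le pd
  set Sc : ℝ := ∑ k ∈ T, ‖c k‖ ^ 2 with hSc
  have hSc0 : 0 ≤ Sc := by positivity
  set E : ℝ := A + Real.sqrt A * K ^ (ξ - 1 / 2) with hE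
  have hE0 : 0 ≤ E := by positivity
  set Z : ℝ := τ ^ 2 * (C₀ * R ^ γ * Sc) with hZ
  have hZ0 : 0 ≤ Z := by positivity
  set Gv : M → ℂ := fun v => ∑ k ∈ T, ∑ l ∈ T, conj (c k) * c l *
    dualT χ c₀ K A δ d (t k) (t l) v with hGv
  have hsd : ∀ k ∈ T, ∀ l ∈ T, Summable fun v => conj (c k) * c l *
      dualT χ c₀ K A δ d (t k) (t l) v := fun k hk l hl =>
    (hχ.summable_dualT c₀ K hA0 hδ hd (hT k hk).1 (hT l hl).1).mul_left _
  have hGs : Summable Gv := summable_sum fun k hk => summable_sum fun l hl => hsd k hk l hl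
  have hGe : ∀ v, Gv v = dco A δ d v * ∑ k ∈ T, ∑ l ∈ T, conj (c k) * c l *
      dform χ (Fv c₀ K v) q (t k) (t l) v := by
    intro v
    simp only [hGv]
    rw [mul_sum]
    refine sum_congr rfl fun k _ => ?_
    rw [mul_sum]
    refine sum_congr rfl fun l _ => ?_
    rw [dualT]; ring
  have e1 : ∑ k ∈ T, ∑ l ∈ T, conj (c k) * c l * ∑' v : M, dualT χ c₀ K A δ d (t k) (t l) v =
      ∑' v : M, if v = 0 then 0 else Gv v := by
    have e2 : ∀ v : M, (if v = 0 then 0 else Gv v) = Gv v := by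
      intro v
      split_ifs with h
      · rw [hGe, h, dco, if_neg (fun h' => not_squarefree_zero h'.1), zero_mul]
      · rfl
    rw [tsum_congr e2, Summable.tsum_finsetSum fun k hk => summable_sum fun l hl => hsd k hk l hl]
    refine sum_congr rfl fun k hk => ?_
    rw [Summable.tsum_finsetSum fun l hl => hsd k hk l hl]
    refine sum_congr rfl fun l _ => ?_
    rw [tsum_mul_left]
  rw [e1]
  set W : ℝ := (D δ).card * ((16 * max C1 C2 + C3) * ((2 * K * A) ^ η * (K ^ β * E * Z))) with hW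
  have hW0 : 0 ≤ W := by positivity
  refine (norm_tsum_le_levels hGs (w := fun j => W * (2 * K / 2 ^ j) ^ η)
    (S := W * ((2 * K) ^ η * (1 - (2 : ℝ) ^ (-η))⁻¹)) ?_ ?_).trans ?_
  · intro j
    set V : ℝ := 2 ^ j with hV
    have hV1 : 1 ≤ V := one_le_pow₀ (by norm_num)
    have hV0 : 0 < V := by linarith
    set S1 := (Lv M j).filter (fun v => Squarefree v ∧ (N v : ℝ) ≤ K) with hS1
    set S2 := (Lv M j).filter (fun v => Squarefree v ∧ K < (N v : ℝ)) with hS2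
    have hB0 : 0 ≤ C₀ * V ^ β * R ^ γ * (V ^ ξ + R) := by positivity
    have hm : ∀ v ∈ Lv M j, Squarefree v → Squarefree v ∧ (N v : ℝ) ≤ V ∧ V < 2 * N v := by
      intro v hv hs
      rw [mem_Lv] at hv
      exact ⟨hs, hv.1.1, hv.2⟩
    set L1 : ℝ := ∑ v ∈ S1, ‖∑ k ∈ T, ∑ l ∈ T, conj (c k) * c l *
      dform χ (Rm M c₀) q (t k) (t l) v‖ with hL1
    set L2 : ℝ := ∑ v ∈ S2, ‖∑ k ∈ T, ∑ l ∈ T, conj (c k) * c l *
      dform χ (thq M) q (t k) (t l) v‖ with hL2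
    have s0 : ∑ v ∈ Lv M j, ‖Gv v‖ ≤ (D δ).card * (A / N d * L1 + A / N d * L2) := by
      rw [hL1, hL2, hS1, hS2, sum_filter, sum_filter, ← mul_add, ← sum_add_distrib, mul_sum,
        mul_sum]
      refine sum_le_sum fun v _ => ?_
      rw [hGe, norm_mul]
      by_cases hs : Squarefree v
      · have h4 := norm_dco_le hA0 hδ d v
        by_cases hK' : (N v : ℝ) ≤ K
        · rw [if_pos ⟨hs, hK'⟩, if_neg (fun h => not_le.2 h.2 hK'), add_zero, Fv, if_pos hK',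
            ← mul_assoc]
          gcongr
        · rw [if_neg (fun h => hK' h.2), if_pos ⟨hs, not_le.1 hK'⟩, zero_add, Fv, if_neg hK',
            ← mul_assoc]
          gcongr
      · rw [dco, if_neg (fun h => hs h.1), if_neg (fun h => hs h.1), if_neg (fun h => hs h.1)]
        simp
    have hconv : ∀ σ C' : ℝ, A / N d * (C' * ((R ^ 2 / q / V) ^ σ / R *
        (τ ^ 2 * (C₀ * V ^ β * R ^ γ * (V ^ ξ + R) * Sc)))) =
        C' * (r * (y / V) ^ σ * (V ^ ξ + R) * V ^ β * Z) := by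
      intro σ C'
      rw [hr, hZ, hy]
      ring
    have s1 : A / N d * L1 ≤ 16 * max C1 C2 * ((2 * K * A) ^ η * (K ^ β * E * Z)) *
        (2 * K / V) ^ η := by
      by_cases hVK : V < 2 * K
      swap
      · have : S1 = ∅ := by
          rw [hS1, filter_eq_empty_iff]
          intro v hv h
          have := (hm v hv h.1).2.2
          exact hVK (by linarith [h.2])
        rw [hL1, this, sum_empty, mul_zero]
        positivity
      have hS : ∀ v ∈ S1, Squarefree v ∧ (N v : ℝ) ≤ V ∧ V < 2 * N v := fun v hv =>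
        hm v (mem_filter.1 hv).1 (mem_filter.1 hv).2.1
      have a1 := h1 T S1 t c q V R _ τ (hH V R hV1 hR) hB0 hq0 hV0 hR0 ht hT hS hτ
      have a2 := h2 T S1 t c q V R _ τ (hH V R hV1 hR) hB0 hq0 hV0 hR0 ht hT hS hτ
      have b1 : A / N d * L1 ≤ max C1 C2 * (r * (y / V) ^ η * (V ^ ξ + R) * V ^ β * Z) := by
        calc A / N d * L1 ≤ _ := mul_le_mul_of_nonneg_left a1 (by positivity)
          _ = C1 * (r * (y / V) ^ η * (V ^ ξ + R) * V ^ β * Z) := hconv _ _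
          _ ≤ _ := by gcongr; exact le_max_left _ _
      have b2 : A / N d * L1 ≤
          max C1 C2 * (r * (y / V) ^ (1 / 2 - η) * (V ^ ξ + R) * V ^ β * Z) := by
        calc A / N d * L1 ≤ _ := mul_le_mul_of_nonneg_left a2 (by positivity)
          _ = C2 * (r * (y / V) ^ (1 / 2 - η) * (V ^ ξ + R) * V ^ β * Z) := hconv _ _
          _ ≤ _ := by gcongr; exact le_max_right _ _
      exact num_s1 hη.le hβ hβ2 hξ hξ2 hV1 hK hVK hy0 hyK hr0 hR0 hA hrR hry hyA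
        (le_max_of_le_left hC1.le) hZ0 b1 b2
    have s2 : A / N d * L2 ≤ C3 * ((2 * K * A) ^ η * (K ^ β * E * Z)) * (2 * K / V) ^ η := by
      by_cases hVK : K ≤ V
      swap
      · have : S2 = ∅ := by
          rw [hS2, filter_eq_empty_iff]
          intro v hv h
          have := (hm v hv h.1).2.1
          exact hVK (by linarith [h.2])
        rw [hL2, this, sum_empty, mul_zero]
        positivity
      have hS : ∀ v ∈ S2, Squarefree v ∧ (N v : ℝ) ≤ V ∧ V < 2 * N v := fun v hv =>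
        hm v (mem_filter.1 hv).1 (mem_filter.1 hv).2.1
      have a3 := h3 T S2 t c q V R _ τ (hH V R hV1 hR) hB0 hq0 hV0 hR0 ht hT hS hτ
      exact num_s2 hη.le (by linarith) hβ2 hξ2 hK hVK hy0 hyK hr0 hA hrR hry hC3.le hZ0
        ((mul_le_mul_of_nonneg_left a3 (by positivity)).trans (le_of_eq (hconv _ _)))
    calc ∑ v ∈ Lv M j, ‖Gv v‖ ≤ (D δ).card * (A / N d * L1 + A / N d * L2) := s0
      _ ≤ (D δ).card * (16 * max C1 C2 * ((2 * K * A) ^ η * (K ^ β * E * Z)) * (2 * K / V) ^ η +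
          C3 * ((2 * K * A) ^ η * (K ^ β * E * Z)) * (2 * K / V) ^ η) := by gcongr
      _ = W * (2 * K / V) ^ η := by rw [hW]; ring
  · intro J
    rw [← mul_sum]
    gcongr
    exact geom_levels hη (by positivity) J
  · refine (num_f hη hK hA (by positivity) (by positivity) (by positivity)).trans (le_of_eq ?_)
    rw [hZ]; ring

end Vale.Agent.P016Z.Ab.QSym
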