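import Vale.Agent.P016Z.QLS.ClsDefs
import Vale.Agent.P016Z.Ab.Sep

/-!
P016, block QLS: duality with reciprocity, the recursion `ξ ↦ 2 - 1/ξ`, and the reduction to
moduli in one dyadic range and one class.
-/

namespace Vale.Agent.P016Z.QLS.B

open Vale.Agent.P016Z.Ab Finset

set_option linter.unusedSectionVars false

theorem norm_sum_mul_sq_le {ι : Type*} (s : Finset ι) (a b : ι → ℂ) :
    ‖∑ i ∈ s, a i * b i‖ ^ 2 ≤ (∑ i ∈ s, ‖a i‖ ^ 2) * ∑ i ∈ s, ‖b i‖ ^ 2 := by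
  calc ‖∑ i ∈ s, a i * b i‖ ^ 2 ≤ (∑ i ∈ s, ‖a i‖ * ‖b i‖) ^ 2 := by
        gcongr
        exact (norm_sum_le _ _).trans (le_of_eq (sum_congr rfl fun i _ => norm_mul _ _))
    _ ≤ _ := sum_mul_sq_le_sq_mul_sq s _ _

/-- duality principle for a finite matrix -/
theorem duality {ι κ : Type*} (s : Finset ι) (t : Finset κ) (M : ι → κ → ℂ) {B : ℝ}
    (hB : 0 ≤ B)
    (h : ∀ a : κ → ℂ, ∑ i ∈ s, ‖∑ j ∈ t, a j * M i j‖ ^ 2 ≤ B * ∑ j ∈ t, ‖a j‖ ^ 2)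
    (b : ι → ℂ) :
    ∑ j ∈ t, ‖∑ i ∈ s, b i * M i j‖ ^ 2 ≤ B * ∑ i ∈ s, ‖b i‖ ^ 2 := by
  set T : κ → ℂ := fun j => ∑ i ∈ s, b i * M i j with hT
  set S : ℝ := ∑ j ∈ t, ‖T j‖ ^ 2 with hS
  have hS0 : 0 ≤ S := by positivity
  have h1 : (S : ℂ) = ∑ i ∈ s, b i * ∑ j ∈ t, (starRingEnd ℂ) (T j) * M i j := by
    rw [hS]
    push_cast
    have : ∀ j ∈ t, ((‖T j‖ : ℂ)) ^ 2 = ∑ i ∈ s, b i * ((starRingEnd ℂ) (T j) * M i j) := by
      intro j _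
      rw [← Complex.mul_conj', hT]
      simp only
      rw [sum_mul]
      exact sum_congr rfl fun i _ => by ring
    rw [sum_congr rfl this, sum_comm]
    exact sum_congr rfl fun i _ => by rw [mul_sum]
  have h2 : S ^ 2 ≤ (∑ i ∈ s, ‖b i‖ ^ 2) * (B * S) := by
    have h3 : ‖(S : ℂ)‖ = S := by rw [Complex.norm_real, Real.norm_of_nonneg hS0]
    calc S ^ 2 = ‖(S : ℂ)‖ ^ 2 := by rw [h3]
      _ ≤ (∑ i ∈ s, ‖b i‖ ^ 2) * ∑ i ∈ s, ‖∑ j ∈ t, (starRingEnd ℂ) (T j) * M i j‖ ^ 2 := by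
          rw [h1]; exact norm_sum_mul_sq_le _ _ _
      _ ≤ (∑ i ∈ s, ‖b i‖ ^ 2) * (B * ∑ j ∈ t, ‖(starRingEnd ℂ) (T j)‖ ^ 2) := by
          gcongr
          exact h fun j => (starRingEnd ℂ) (T j)
      _ = _ := by simp [hS]
  rcases hS0.eq_or_lt with h0 | h0
  · rw [← h0]; positivity
  · have h4 : S * S ≤ (B * ∑ i ∈ s, ‖b i‖ ^ 2) * S := by nlinarith
    exact le_of_mul_le_mul_right h4 h0

/-- a sum of nonnegative terms over a set covered by the image of `φ` -/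
theorem sum_le_sum_cover {α β : Type*} (S : Finset α) (T : Finset β) (φ : β → α)
    (hcov : ∀ a ∈ S, ∃ b ∈ T, φ b = a) (g : α → ℝ) (hg : ∀ a, 0 ≤ g a) :
    ∑ a ∈ S, g a ≤ ∑ b ∈ T, g (φ b) := by
  classical
  calc ∑ a ∈ S, g a ≤ ∑ a ∈ T.image φ, g a := by
        apply sum_le_sum_of_subset_of_nonneg
        · intro a ha
          rw [mem_image]
          exact hcov a ha
        · intro a _ _; exact hg a
    _ ≤ ∑ b ∈ T, g (φ b) := by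
        apply sum_image_le_of_nonneg
        intro b _; exact hg _

variable {M : Type} [CommMonoidWithZero M] [UniqueFactorizationMonoid M] [Ar M] [Rad M]
  {χ : M → M → ℂ}

theorem norm_le_one (hχ : QSym χ) {n : M} (hn : Sq n) (x : M) : ‖χ n x‖ ≤ 1 := by
  have h := congrArg norm (hχ.sq n x hn)
  rw [norm_mul] at h
  have h1 := norm_cop_le n x
  nlinarith [norm_nonneg (χ n x)]

theorem mono_bound {X Y B B' : ℝ} (h : LSa χ X Y B) (hB : B ≤ B') : LSa χ X Y B' :=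
  fun T S c hT hS => (h T S c hT hS).trans (by gcongr)

theorem mono_arg {X X' Y B : ℝ} (h : LSa χ X' Y B) (hX : X ≤ X') : LSa χ X Y B :=
  fun T S c hT hS => h T S c hT fun v hv => ⟨(hS v hv).1, (hS v hv).2.trans hX⟩

variable (M) in
/-- every nonzero element is associated to a chosen generator -/
def AllP : Prop := ∀ v : M, v ≠ 0 → ∃ w : M, Prim w ∧ Associated v w

/-- a squarefree element is a unit times a squarefree generator -/
theorem sqf_split (hA : AllP M) {v : M} (hv : Squarefree v) :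
    ∃ t w : M, t ∈ Hn M 1 ∧ Sq w ∧ v = t * w ∧ N w ≤ N v := by
  have : Nontrivial M := ⟨⟨1, 0, one_ne_zero'⟩⟩
  obtain ⟨w, hw, hvw⟩ := hA v hv.ne_zero
  obtain ⟨u, hu⟩ := hvw.symm
  have h1 : N (u : M) = 1 := isUnit_iff_N.1 u.isUnit
  refine ⟨u, w, ?_, ⟨hw, hvw.squarefree_iff.1 hv⟩, by rw [← hu, mul_comm], ?_⟩
  · rw [mem_Hn, h1]
    exact ⟨by simp, u.ne_zero⟩
  · rw [← hu, N_mul, h1, mul_one]

variable (M) in
/-- the constant lost in the duality -/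
noncomputable def cDual : ℝ := (Hn M 1).card * nJ M

theorem cDual_nonneg : 0 ≤ cDual M := by unfold cDual; positivity

/-- **duality with reciprocity** -/
theorem dual (hA : AllP M) (hχ : QSym χ) {X Y B : ℝ} (hB : 0 ≤ B) (h : LSa χ Y X B) :
    LSa χ X Y (cDual M * B) := by
  classical
  intro T S c hT hS
  obtain ⟨ε, hε1, hε2, -, hε3⟩ := hχ.recip
  set W : Finset M := SO M X with hW
  have hWm : ∀ w ∈ W, Sq w ∧ (N w : ℝ) ≤ X := fun w hw => (mem_SO.1 hw).symm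
  have hdual : ∀ b : M → ℂ,
      ∑ w ∈ W, ‖∑ n ∈ T, b n * χ w n‖ ^ 2 ≤ B * ∑ n ∈ T, ‖b n‖ ^ 2 :=
    duality T W (fun n w => χ w n) hB
      (fun a => h W T a hWm fun n hn => ⟨(hT n hn).1.2, (hT n hn).2⟩)
  set g : M → ℝ := fun v => ‖∑ n ∈ T, c n * χ n v‖ ^ 2 with hg
  have h1 : ∑ v ∈ S, g v ≤ ∑ p ∈ Hn M 1 ×ˢ W, g (p.1 * p.2) := by
    refine sum_le_sum_cover S _ (fun p : M × M => p.1 * p.2) ?_ g fun v => by positivity
    intro v hv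
    obtain ⟨t, w, ht, hw, e, hN⟩ := sqf_split hA (hS v hv).1
    refine ⟨(t, w), ?_, e.symm⟩
    rw [mem_product]
    exact ⟨ht, mem_SO.2 ⟨(by exact_mod_cast hN : (N w : ℝ) ≤ N v).trans (hS v hv).2, hw⟩⟩
  have h2 : ∀ t : M, ∑ w ∈ W, g (t * w) ≤ nJ M * (B * ∑ n ∈ T, ‖c n‖ ^ 2) := by
    intro t
    have h3 : ∀ w ∈ W, g (t * w) ≤
        ∑ r : J M, ‖∑ n ∈ T, (c n * χ n t * ε n (rep r)) * χ w n‖ ^ 2 := by
      intro w hw
      refine le_trans (le_of_eq ?_) (single_le_sum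
        (f := fun r : J M => ‖∑ n ∈ T, (c n * χ n t * ε n (rep r)) * χ w n‖ ^ 2)
        (fun _ _ => by positivity) (mem_univ (cm w)))
      simp only [hg]
      congr 2
      refine sum_congr rfl fun n hn => ?_
      rw [hχ.mul_right n t w (hT n hn).1, hε3 n w (hT n hn).1 (hWm w hw).1, (hε2 n).out w]
      ring
    calc ∑ w ∈ W, g (t * w)
        ≤ ∑ w ∈ W, ∑ r : J M, ‖∑ n ∈ T, (c n * χ n t * ε n (rep r)) * χ w n‖ ^ 2 := sum_le_sum h3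
      _ = ∑ r : J M, ∑ w ∈ W, ‖∑ n ∈ T, (c n * χ n t * ε n (rep r)) * χ w n‖ ^ 2 := sum_comm
      _ ≤ ∑ r : J M, B * ∑ n ∈ T, ‖c n‖ ^ 2 := by
          refine sum_le_sum fun r _ => (hdual _).trans ?_
          gcongr with n hn
          rw [norm_mul, norm_mul]
          have a1 := norm_le_one hχ (hT n hn).1 t
          have a2 := hε1 n (rep r)
          calc ‖c n‖ * ‖χ n t‖ * ‖ε n (rep r)‖ ≤ ‖c n‖ * 1 * 1 := by gcongr
            _ = ‖c n‖ := by ring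
      _ = _ := by rw [sum_const, nsmul_eq_mul, card_univ]
  calc ∑ v ∈ S, g v ≤ ∑ p ∈ Hn M 1 ×ˢ W, g (p.1 * p.2) := h1
    _ = ∑ t ∈ Hn M 1, ∑ w ∈ W, g (t * w) := sum_product _ _ _
    _ ≤ ∑ t ∈ Hn M 1, nJ M * (B * ∑ n ∈ T, ‖c n‖ ^ 2) := sum_le_sum fun t _ => h2 t
    _ = _ := by rw [sum_const, nsmul_eq_mul, cDual]; ring

theorem hypD_of_hyp (hA : AllP M) (hχ : QSym χ) {ξ : ℝ} (h : Hyp χ ξ) : HypD χ ξ := by
  intro ε hε
  obtain ⟨C, hC, h1⟩ := h ε hε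
  have hc := cDual_nonneg (M := M)
  refine ⟨(cDual M + 1) * C, by positivity, fun X Y hX hY => ?_⟩
  have hX0 : 0 < X := by linarith
  have hY0 : 0 < Y := by linarith
  refine mono_bound (dual hA hχ (by positivity) (h1 Y X hY hX)) ?_
  rw [mul_comm Y X, add_comm Y]
  have : 0 ≤ C * (X * Y) ^ ε * (X ^ ξ + Y) := by positivity
  nlinarith

theorem hyp_step {ξ : ℝ} (h1 : 1 ≤ ξ) (h : StepOut χ ξ) : Hyp χ (2 - 1 / ξ) := by
  intro ε hε
  obtain ⟨C, hC, hs⟩ := h (ε / 3) (by positivity)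
  refine ⟨4 * C, by positivity, fun X Y hX hY => ?_⟩
  have hξ : 0 < ξ := by linarith
  have hi : 1 / ξ ≤ 1 := by rw [div_le_one hξ]; exact h1
  have hi0 : 0 < 1 / ξ := by positivity
  set η : ℝ := 2 - 1 / ξ with hη
  have hY0 : 0 < Y := by linarith
  set Z : ℝ := max X (Y ^ η) with hZ
  have hXZ : X ≤ Z := le_max_left _ _
  have hYZ : Y ^ η ≤ Z := le_max_right _ _
  have hZ1 : 1 ≤ Z := hX.trans hXZ
  have hZ0 : 0 < Z := by linarith
  have hYη : Y ≤ Y ^ η := by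
    calc Y = Y ^ (1 : ℝ) := (Real.rpow_one Y).symm
      _ ≤ Y ^ η := Real.rpow_le_rpow_of_exponent_le hY (by linarith)
  have hYη2 : Y ^ η ≤ Y ^ 2 := by
    rw [← Real.rpow_two]
    exact Real.rpow_le_rpow_of_exponent_le hY (by linarith)
  have h2ξ : 0 < 2 * ξ - 1 := by linarith
  set K : ℝ := max 1 (Y ^ 2 / Z) with hK
  have hK1 : 1 ≤ K := le_max_left _ _
  have hKZ : K ≤ Z ^ (1 / (2 * ξ - 1)) := by
    refine max_le (Real.one_le_rpow hZ1 (by positivity)) ?_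
    have hη0 : 0 < η := by linarith
    have e1 : Y ^ 2 = (Y ^ η) ^ (2 / η) := by
      rw [← Real.rpow_mul hY0.le, ← Real.rpow_two]
      congr 1; field_simp
    have e2 : 2 / η = 1 / (2 * ξ - 1) + 1 := by
      rw [hη]; field_simp; ring
    rw [div_le_iff₀ hZ0, ← Real.rpow_add_one hZ0.ne', ← e2, e1]
    exact Real.rpow_le_rpow (by positivity) hYZ (by positivity)
  have hA : Real.sqrt Z * K ^ (ξ - 1 / 2) ≤ Z := by
    have a1 : K ^ (ξ - 1 / 2) ≤ (Z ^ (1 / (2 * ξ - 1))) ^ (ξ - 1 / 2) :=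
      Real.rpow_le_rpow (by linarith) hKZ (by linarith)
    rw [← Real.rpow_mul hZ0.le, show 1 / (2 * ξ - 1) * (ξ - 1 / 2) = 1 / 2 by field_simp,
      ← Real.sqrt_eq_rpow] at a1
    calc Real.sqrt Z * K ^ (ξ - 1 / 2) ≤ Real.sqrt Z * Real.sqrt Z := by gcongr
      _ = Z := Real.mul_self_sqrt hZ0.le
  have hB : K ^ ξ ≤ Z := by
    have a1 : K ^ ξ ≤ (Z ^ (1 / (2 * ξ - 1))) ^ ξ := Real.rpow_le_rpow (by linarith) hKZ hξ.le
    rw [← Real.rpow_mul hZ0.le] at a1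
    refine a1.trans ?_
    calc Z ^ (1 / (2 * ξ - 1) * ξ) ≤ Z ^ (1 : ℝ) := by
          refine Real.rpow_le_rpow_of_exponent_le hZ1 ?_
          rw [div_mul_eq_mul_div, one_mul, div_le_one h2ξ]
          linarith
      _ = Z := Real.rpow_one Z
  have hZle : Z ≤ X + Y ^ η := max_le (by linarith [Real.rpow_pos_of_pos hY0 η]) (by linarith)
  have hZY : Z * Y ≤ (X * Y) ^ 3 := by
    have a1 : Z ≤ X * Y ^ 2 := by
      refine max_le ?_ (hYη2.trans ?_)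
      · exact le_mul_of_one_le_right (by linarith) (one_le_pow₀ hY)
      · exact le_mul_of_one_le_left (by positivity) hX
    have a2 : X ≤ X ^ 3 := le_self_pow₀ hX (by norm_num)
    calc Z * Y ≤ X * Y ^ 2 * Y := by gcongr
      _ = X * Y ^ 3 := by ring
      _ ≤ X ^ 3 * Y ^ 3 := by gcongr
      _ = (X * Y) ^ 3 := by ring
  have hpow : (Z * Y) ^ (ε / 3) ≤ (X * Y) ^ ε := by
    calc (Z * Y) ^ (ε / 3) ≤ ((X * Y) ^ 3) ^ (ε / 3) :=
          Real.rpow_le_rpow (by positivity) hZY (by positivity)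
      _ = (X * Y) ^ ε := by
          rw [← Real.rpow_natCast, ← Real.rpow_mul (by positivity)]
          congr 1; push_cast; ring
  refine mono_bound (mono_arg (hs Z Y hZ1 hY) hXZ) ?_
  rw [← hK]
  calc C * (Z * Y) ^ (ε / 3) * (Z + Y + Real.sqrt Z * K ^ (ξ - 1 / 2) + K ^ ξ)
      ≤ C * (X * Y) ^ ε * (4 * Z) := by gcongr; linarith
    _ ≤ C * (X * Y) ^ ε * (4 * (X + Y ^ η)) := by gcongr
    _ = _ := by ring

theorem hyp_iter (hA : AllP M) (hχ : QSym χ) (h2 : Hyp χ 2) (hS : Step χ) (r : ℕ) :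
    Hyp χ (1 + 1 / ((r : ℝ) + 1)) := by
  induction r with
  | zero => norm_num; exact h2
  | succ r ih =>
    have hr : (0 : ℝ) < r + 1 := by positivity
    have a1 : 1 ≤ 1 + 1 / ((r : ℝ) + 1) := by
      have : 0 < 1 / ((r : ℝ) + 1) := by positivity
      linarith
    have a2 : 1 + 1 / ((r : ℝ) + 1) ≤ 2 := by
      have : 1 / ((r : ℝ) + 1) ≤ 1 := by
        rw [div_le_one hr]; linarith [(Nat.cast_nonneg r : (0 : ℝ) ≤ r)]
      linarith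
    have h := hyp_step a1 (hS _ a1 a2 (hypD_of_hyp hA hχ ih))
    have e : 2 - 1 / (1 + 1 / ((r : ℝ) + 1)) = 1 + 1 / (((r + 1 : ℕ) : ℝ) + 1) := by
      push_cast; field_simp; ring
    rwa [e] at h

theorem hyp_one (hA : AllP M) (hχ : QSym χ) (h2 : Hyp χ 2) (hS : Step χ) : Hyp χ 1 := by
  intro ε hε
  obtain ⟨r, hr⟩ := exists_nat_one_div_lt (half_pos hε)
  obtain ⟨C, hC, h⟩ := hyp_iter hA hχ h2 hS r (ε / 2) (half_pos hε)
  refine ⟨C, hC, fun X Y hX hY T S c hT hS' => (h X Y hX hY T S c hT hS').trans ?_⟩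
  rw [Real.rpow_one]
  have hX0 : 0 < X := by linarith
  have hY0 : 0 < Y := by linarith
  have hXY : 1 ≤ X * Y := by nlinarith
  have a1 : 1 ≤ (X * Y) ^ (ε / 2) := Real.one_le_rpow hXY (by positivity)
  have a2 : Y ^ (1 + 1 / ((r : ℝ) + 1)) ≤ (X * Y) ^ (ε / 2) * Y := by
    rw [add_comm, Real.rpow_add_one hY0.ne']
    gcongr
    calc Y ^ (1 / ((r : ℝ) + 1)) ≤ Y ^ (ε / 2) := Real.rpow_le_rpow_of_exponent_le hY hr.le
      _ ≤ (X * Y) ^ (ε / 2) :=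
          Real.rpow_le_rpow hY0.le (le_mul_of_one_le_left hY0.le hX) (by positivity)
  have a3 : X + Y ^ (1 + 1 / ((r : ℝ) + 1)) ≤ (X * Y) ^ (ε / 2) * (X + Y) := by
    rw [mul_add]
    have : X ≤ (X * Y) ^ (ε / 2) * X := le_mul_of_one_le_left hX0.le a1
    linarith
  have a4 : (X * Y) ^ ε = (X * Y) ^ (ε / 2) * (X * Y) ^ (ε / 2) := by
    rw [← Real.rpow_add (by positivity)]; congr 1; ring
  gcongr ?_ * _
  rw [a4]
  calc C * (X * Y) ^ (ε / 2) * (X + Y ^ (1 + 1 / ((r : ℝ) + 1)))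
      ≤ C * (X * Y) ^ (ε / 2) * ((X * Y) ^ (ε / 2) * (X + Y)) := by gcongr
    _ = _ := by ring

theorem qls_mod_of_hyp (h : Hyp χ 1) : QLSmod χ := by
  intro ε hε
  obtain ⟨C, hC, h1⟩ := h ε hε
  refine ⟨C, hC, fun X Y T S c hX hY hT hS => ?_⟩
  have hX0 : 0 < X := by linarith
  have hY0 : 0 < Y := by linarith
  have h2 := h1 X Y hX hY
  rw [Real.rpow_one] at h2
  exact duality S T (fun v n => χ n v) (by positivity) (fun a => h2 T S a hT hS) c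

/-- splitting the inner sum into finitely many classes -/
theorem split_classes {ι : Type*} [DecidableEq ι] (I : Finset ι) (T S : Finset M) (g : M → ι)
    (hg : ∀ n ∈ T, g n ∈ I) (F : M → M → ℂ) (c : M → ℂ) {B : ℝ}
    (h : ∀ i ∈ I, ∑ v ∈ S, ‖∑ n ∈ T.filter (fun n => g n = i), c n * F n v‖ ^ 2 ≤
      B * ∑ n ∈ T.filter (fun n => g n = i), ‖c n‖ ^ 2) :
    ∑ v ∈ S, ‖∑ n ∈ T, c n * F n v‖ ^ 2 ≤ I.card * B * ∑ n ∈ T, ‖c n‖ ^ 2 := by
  have h1 : ∀ v ∈ S, ‖∑ n ∈ T, c n * F n v‖ ^ 2 ≤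
      I.card * ∑ i ∈ I, ‖∑ n ∈ T.filter (fun n => g n = i), c n * F n v‖ ^ 2 := by
    intro v _
    rw [← sum_fiberwise_of_maps_to hg]
    have h2 := norm_sum_mul_sq_le I (fun _ => (1 : ℂ))
      (fun i => ∑ n ∈ T.filter (fun n => g n = i), c n * F n v)
    simpa using h2
  calc ∑ v ∈ S, ‖∑ n ∈ T, c n * F n v‖ ^ 2
      ≤ ∑ v ∈ S, I.card * ∑ i ∈ I, ‖∑ n ∈ T.filter (fun n => g n = i), c n * F n v‖ ^ 2 :=
        sum_le_sum h1
    _ = I.card * ∑ i ∈ I, ∑ v ∈ S, ‖∑ n ∈ T.filter (fun n => g n = i), c n * F n v‖ ^ 2 := by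
        rw [← mul_sum, sum_comm]
    _ ≤ I.card * ∑ i ∈ I, B * ∑ n ∈ T.filter (fun n => g n = i), ‖c n‖ ^ 2 := by
        gcongr with i hi
        exact h i hi
    _ = _ := by rw [← mul_sum, sum_fiberwise_of_maps_to hg]; ring

theorem log_count' {ε : ℝ} (hε : 0 < ε) :
    ∃ C : ℝ, 0 < C ∧ ∀ K : ℝ, 1 ≤ K → ((Nat.log 2 ⌊K⌋₊ + 1 : ℕ) : ℝ) ≤ C * K ^ ε := by
  have hl2 : 0 < Real.log 2 := Real.log_pos (by norm_num)
  refine ⟨1 + 1 / (ε * Real.log 2), by positivity, fun K hK => ?_⟩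
  have hf : 1 ≤ ⌊K⌋₊ := (Nat.one_le_floor_iff K).2 hK
  have h1 : (2 : ℝ) ^ (Nat.log 2 ⌊K⌋₊) ≤ K := by
    have h2 : 2 ^ (Nat.log 2 ⌊K⌋₊) ≤ ⌊K⌋₊ := Nat.pow_log_le_self 2 (by omega)
    calc (2 : ℝ) ^ (Nat.log 2 ⌊K⌋₊) = ((2 ^ (Nat.log 2 ⌊K⌋₊) : ℕ) : ℝ) := by push_cast; rfl
      _ ≤ ((⌊K⌋₊ : ℕ) : ℝ) := by exact_mod_cast h2
      _ ≤ K := Nat.floor_le (by linarith)
  have h3 : (Nat.log 2 ⌊K⌋₊ : ℝ) * Real.log 2 ≤ Real.log K := by
    rw [← Real.log_pow]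
    exact Real.log_le_log (by positivity) h1
  have h4 : Real.log K ≤ K ^ ε / ε := Real.log_le_rpow_div (by linarith) hε
  have h5 : (1 : ℝ) ≤ K ^ ε := Real.one_le_rpow hK hε.le
  push_cast
  have h6 : (Nat.log 2 ⌊K⌋₊ : ℝ) ≤ 1 / (ε * Real.log 2) * K ^ ε := by
    rw [← le_div_iff₀ hl2] at h3
    refine h3.trans ?_
    rw [div_le_iff₀ hl2]
    refine h4.trans (le_of_eq ?_)
    field_simp
  linarith

/-- the dyadic class of a real number `x ≥ 1` -/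
theorem dyadic_spec {x : ℝ} (hx : 1 ≤ x) :
    (2 : ℝ) ^ (Nat.log 2 ⌊x⌋₊) ≤ x ∧ x < 2 * 2 ^ (Nat.log 2 ⌊x⌋₊) := by
  have hf : 1 ≤ ⌊x⌋₊ := (Nat.one_le_floor_iff x).2 hx
  constructor
  · have h2 : 2 ^ (Nat.log 2 ⌊x⌋₊) ≤ ⌊x⌋₊ := Nat.pow_log_le_self 2 (by omega)
    calc (2 : ℝ) ^ (Nat.log 2 ⌊x⌋₊) = ((2 ^ (Nat.log 2 ⌊x⌋₊) : ℕ) : ℝ) := by push_cast; rfl
      _ ≤ ((⌊x⌋₊ : ℕ) : ℝ) := by exact_mod_cast h2
      _ ≤ x := Nat.floor_le (by linarith)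
  · have h2 : ⌊x⌋₊ + 1 ≤ 2 ^ (Nat.log 2 ⌊x⌋₊ + 1) := Nat.lt_pow_succ_log_self (by norm_num) _
    calc x < (⌊x⌋₊ : ℝ) + 1 := Nat.lt_floor_add_one x
      _ ≤ ((2 ^ (Nat.log 2 ⌊x⌋₊ + 1) : ℕ) : ℝ) := by exact_mod_cast h2
      _ = _ := by push_cast; ring

theorem stepOut_of_cls {ξ : ℝ} (h1 : 1 ≤ ξ) (h : StepC χ ξ) : StepOut χ ξ := by
  classical
  intro ε hε
  obtain ⟨C1, hC1, hs⟩ := h (ε / 2) (half_pos hε)
  obtain ⟨C2, hC2, hl⟩ := log_count' (half_pos hε)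
  refine ⟨(nJ M + 1) * C2 * C1, by positivity, fun X Y hX hY T S c hT hS => ?_⟩
  have hX0 : 0 < X := by linarith
  have hY0 : 0 < Y := by linarith
  set V : ℝ → ℝ := fun Y => X + Y + Real.sqrt X * (max 1 (Y ^ 2 / X)) ^ (ξ - 1 / 2) +
      (max 1 (Y ^ 2 / X)) ^ ξ with hV
  have hV0 : 0 ≤ V Y := by simp only [hV]; positivity
  set Jn : ℕ := Nat.log 2 ⌊Y⌋₊ + 1 with hJ
  set g : M → J M × ℕ := fun n => (cm n, Nat.log 2 ⌊Y / N n⌋₊) with hg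
  have hN : ∀ n ∈ T, (1 : ℝ) ≤ N n := fun n hn => by exact_mod_cast (hT n hn).1.1.N_pos
  have hgI : ∀ n ∈ T, g n ∈ univ ×ˢ range Jn := by
    intro n hn
    rw [mem_product, mem_range]
    refine ⟨mem_univ _, ?_⟩
    have : Nat.log 2 ⌊Y / N n⌋₊ ≤ Nat.log 2 ⌊Y⌋₊ :=
      Nat.log_mono_right (Nat.floor_mono (div_le_self hY0.le (hN n hn)))
    simp only [hg, hJ]
    omega
  have key := split_classes (univ ×ˢ range Jn) T S g hgI χ c
    (B := C1 * (X * Y) ^ (ε / 2) * V Y) ?_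
  · refine key.trans ?_
    gcongr ?_ * _
    rw [card_product, card_range, card_univ]
    have a1 := hl Y hY
    rw [← hJ] at a1
    have a2 : Y ^ (ε / 2) ≤ (X * Y) ^ (ε / 2) :=
      Real.rpow_le_rpow hY0.le (le_mul_of_one_le_left hY0.le hX) (half_pos hε).le
    have a4 : (X * Y) ^ ε = (X * Y) ^ (ε / 2) * (X * Y) ^ (ε / 2) := by
      rw [← Real.rpow_add (by positivity)]; congr 1; ring
    rw [a4, Nat.cast_mul]
    calc (nJ M : ℝ) * Jn * (C1 * (X * Y) ^ (ε / 2) * V Y)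
        ≤ (nJ M + 1) * (C2 * (X * Y) ^ (ε / 2)) * (C1 * (X * Y) ^ (ε / 2) * V Y) := by
          gcongr
          · linarith
          · exact a1.trans (by gcongr)
      _ = _ := by simp only [hV]; ring
  · rintro ⟨r, i⟩ hi
    rw [mem_product, mem_range] at hi
    have hp : (2 : ℝ) ^ i ≤ Y := by
      refine le_trans ?_ (dyadic_spec hY).1
      exact pow_le_pow_right₀ (by norm_num) (by have := hi.2; simp only [hJ] at this; omega)
    have hp0 : (0 : ℝ) < 2 ^ i := by positivity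
    set Yi : ℝ := Y / 2 ^ i with hYi
    have hYi1 : 1 ≤ Yi := by rw [hYi, le_div_iff₀ hp0, one_mul]; exact hp
    have hYiY : Yi ≤ Y := div_le_self hY0.le (one_le_pow₀ (by norm_num))
    refine (hs X Yi hX hYi1 _ S c ?_ ?_ hS).trans ?_
    · intro n hn
      rw [mem_filter] at hn
      have hn1 := hN n hn.1
      have hn0 : (0 : ℝ) < N n := by linarith
      have hi2 : Nat.log 2 ⌊Y / N n⌋₊ = i := (Prod.ext_iff.1 hn.2).2
      have hq : 1 ≤ Y / N n := by rw [le_div_iff₀ hn0, one_mul]; exact (hT n hn.1).2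
      obtain ⟨b1, b2⟩ := dyadic_spec hq
      rw [hi2] at b1 b2
      rw [le_div_iff₀ hn0] at b1
      rw [div_lt_iff₀ hn0] at b2
      refine ⟨(hT n hn.1).1, ?_, ?_⟩
      · rw [hYi, le_div_iff₀ hp0]; linarith
      · rw [hYi, div_lt_iff₀ hp0]; linarith
    · intro k hk l hl'
      rw [mem_filter] at hk hl'
      have e1 : cm k = r := (Prod.ext_iff.1 hk.2).1
      have e2 : cm l = r := (Prod.ext_iff.1 hl'.2).1
      rw [e1, e2]
    · have hK : max 1 (Yi ^ 2 / X) ≤ max 1 (Y ^ 2 / X) := by gcongr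
      have hK0 : 0 ≤ max 1 (Yi ^ 2 / X) := le_trans zero_le_one (le_max_left _ _)
      have b1 : (max 1 (Yi ^ 2 / X)) ^ (ξ - 1 / 2) ≤ (max 1 (Y ^ 2 / X)) ^ (ξ - 1 / 2) :=
        Real.rpow_le_rpow hK0 hK (by linarith)
      have b2 : (max 1 (Yi ^ 2 / X)) ^ ξ ≤ (max 1 (Y ^ 2 / X)) ^ ξ :=
        Real.rpow_le_rpow hK0 hK (by linarith)
      simp only [hV]
      gcongr

theorem step_of_stepC (h : ∀ ξ : ℝ, 1 ≤ ξ → ξ ≤ 2 → HypD χ ξ → StepC χ ξ) : Step χ :=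
  fun ξ h1 h2 hD => stepOut_of_cls h1 (h ξ h1 h2 hD)

end Vale.Agent.P016Z.QLS.B
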