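import Vale.Agent.P016Z.QLS.Ident

/-!
P016, block QLS: separation of variables for functions with a Mellin representation.
-/

namespace Vale.Agent.P016Z.QLS

open Vale.Agent.P016Z.Ab
open MeasureTheory Complex
open scoped BigOperators ComplexConjugate
open scoped Classical

set_option linter.unusedSectionVars false

variable {M : Type} [CommMonoidWithZero M] [UniqueFactorizationMonoid M] [Ar M] [Rad M]

theorem norm_cpow_line {x : ℝ} (hx : 0 < x) (σ u : ℝ) :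
    ‖(x : ℂ) ^ (-(σ : ℂ) + 2 * (Real.pi : ℂ) * u * I)‖ = x ^ (-σ) := by
  rw [norm_cpow_eq_rpow_re_of_pos hx]
  congr 1
  simp

theorem sepF {G : ℝ → ℝ} {σ : ℝ} (hσ : 0 < σ) (hG : MelRep G σ) : ∃ C : ℝ, 0 < C ∧
    ∀ {ι κ : Type} (S : Finset ι) (H : Finset κ) (z : ι → κ → ℂ) (ν : ι → ℝ) (B : κ → ℝ)
      (B₀ W : ℝ), (∀ s ∈ S, 0 < ν s) → 0 < B₀ → (∀ h ∈ H, B₀ ≤ B h) →
      (∀ u : ℝ, ∑ h ∈ H, ‖∑ s ∈ S, z s h * (ν s : ℂ) ^ ((σ : ℂ) + u * I)‖ ^ 2 ≤ W) →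
      ∑ h ∈ H, ‖∑ s ∈ S, ∑ t ∈ S, z s h * conj (z t h) *
        ((G (B h / (ν s * ν t)) : ℝ) : ℂ)‖ ≤ C * B₀ ^ (-σ) * W := by
  obtain ⟨ρ, C, hC, hρ, hb, hinv⟩ := hG
  refine ⟨C * Real.pi, by positivity, ?_⟩
  intro ι κ S H z ν B B₀ W hν hB₀ hB hW
  have hW0 : 0 ≤ W := (Finset.sum_nonneg fun _ _ => sq_nonneg _).trans (hW 0)
  set X : κ → ℝ → ℂ := fun h u => ∑ s ∈ S, z s h * (ν s : ℂ) ^ ((σ : ℂ) + u * I) with hX
  set w : ℝ → ℂ := fun u => -(σ : ℂ) + 2 * (Real.pi : ℂ) * u * I with hw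
  set F : κ → ℝ → ℂ := fun h u => ρ u * ((B h : ℂ) ^ (w u) *
    (X h (-(2 * Real.pi * u)) * conj (X h (2 * Real.pi * u)))) with hF
  have hBpos : ∀ h ∈ H, 0 < B h := fun h hh => hB₀.trans_le (hB h hh)
  -- pointwise formula for F
  have hFeq : ∀ h ∈ H, ∀ u, F h u = ∑ s ∈ S, ∑ t ∈ S, z s h * conj (z t h) *
      (ρ u * ((B h / (ν s * ν t) : ℝ) : ℂ) ^ (w u)) := by
    intro h hh u
    simp only [hF, hX]
    rw [map_sum, Finset.sum_mul_sum, Finset.mul_sum, Finset.mul_sum]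
    refine Finset.sum_congr rfl fun s hs => ?_
    rw [Finset.mul_sum, Finset.mul_sum]
    refine Finset.sum_congr rfl fun t ht => ?_
    have ps := hν s hs
    have pt := hν t ht
    have pB := hBpos h hh
    rw [map_mul, conj_cpow_pos pt]
    have e1 : conj ((σ : ℂ) + ((2 * Real.pi * u : ℝ) : ℂ) * I) = -(w u) := by
      simp only [hw, map_add, map_mul, conj_ofReal, conj_I]
      push_cast; ring
    have e2 : (σ : ℂ) + ((-(2 * Real.pi * u) : ℝ) : ℂ) * I = -(w u) := by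
      simp only [hw]; push_cast; ring
    have e3 : ((B h / (ν s * ν t) : ℝ) : ℂ) ^ (w u) =
        (B h : ℂ) ^ (w u) * ((ν s : ℂ) ^ (-(w u)) * (ν t : ℂ) ^ (-(w u))) := by
      have h1 : (B h / (ν s * ν t) : ℝ) = B h * ((ν s)⁻¹ * (ν t)⁻¹) := by
        rw [div_eq_mul_inv, mul_inv]
      rw [h1, ofReal_mul, mul_cpow_ofReal_nonneg pB.le (by positivity), ofReal_mul,
        mul_cpow_ofReal_nonneg (by positivity) (by positivity), ofReal_inv, ofReal_inv,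
        inv_cpow _ _ (by rw [arg_ofReal_of_nonneg ps.le]; exact Real.pi_ne_zero.symm),
        inv_cpow _ _ (by rw [arg_ofReal_of_nonneg pt.le]; exact Real.pi_ne_zero.symm),
        cpow_neg, cpow_neg]
    rw [e1, e2, e3]
    ring
  have hwc : Continuous w := by simp only [hw]; fun_prop
  have hcp : ∀ x : ℝ, 0 < x → Continuous fun u => (x : ℂ) ^ (w u) := fun x hx =>
    hwc.const_cpow (Or.inl (by exact_mod_cast hx.ne'))
  have hint : ∀ x : ℝ, 0 < x → Integrable fun u => ρ u * (x : ℂ) ^ (w u) := by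
    intro x hx
    have h1 : Integrable fun u : ℝ => C * (1 + u ^ 2)⁻¹ * x ^ (-σ) :=
      (integrable_inv_one_add_sq.const_mul C).mul_const _
    refine h1.mono' (hρ.mul (hcp x hx)).aestronglyMeasurable
      (Filter.Eventually.of_forall fun u => ?_)
    rw [norm_mul, hw, norm_cpow_line hx]
    exact mul_le_mul_of_nonneg_right (hb u) (by positivity)
  have hFint : ∀ h ∈ H, ∫ u, F h u = ∑ s ∈ S, ∑ t ∈ S, z s h * conj (z t h) *
        ((G (B h / (ν s * ν t)) : ℝ) : ℂ) := by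
    intro h hh
    rw [integral_congr_ae (Filter.Eventually.of_forall (hFeq h hh)), integral_finsetSum]
    · refine Finset.sum_congr rfl fun s hs => ?_
      rw [integral_finsetSum]
      · refine Finset.sum_congr rfl fun t ht => ?_
        have ps := hν s hs
        have pt := hν t ht
        have pB := hBpos h hh
        rw [integral_const_mul, hinv _ (by positivity)]
      · intro t ht
        have ps := hν s hs
        have pt := hν t ht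
        have pB := hBpos h hh
        exact (hint _ (by positivity)).const_mul _
    · intro s hs
      refine integrable_finsetSum _ fun t ht => ?_
      have ps := hν s hs
      have pt := hν t ht
      have pB := hBpos h hh
      exact (hint _ (by positivity)).const_mul _
  have hFi : ∀ h ∈ H, Integrable (F h) := by
    intro h hh
    have h1 : F h = fun u => ∑ s ∈ S, ∑ t ∈ S, z s h * conj (z t h) *
      (ρ u * ((B h / (ν s * ν t) : ℝ) : ℂ) ^ (w u)) := funext (hFeq h hh)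
    rw [h1]
    refine integrable_finsetSum _ fun s hs => integrable_finsetSum _ fun t ht => ?_
    have ps := hν s hs
    have pt := hν t ht
    have pB := hBpos h hh
    exact (hint _ (by positivity)).const_mul _
  have hFn : ∀ u, ∑ h ∈ H, ‖F h u‖ ≤ C * (1 + u ^ 2)⁻¹ * (B₀ ^ (-σ) * W) := by
    intro u
    have h1 : ∀ h ∈ H, ‖F h u‖ ≤ C * (1 + u ^ 2)⁻¹ * (B₀ ^ (-σ) *
        (1 / 2 * ‖X h (-(2 * Real.pi * u))‖ ^ 2 + 1 / 2 * ‖X h (2 * Real.pi * u)‖ ^ 2)) := by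
      intro h hh
      simp only [hF]
      rw [norm_mul, norm_mul, hw, norm_cpow_line (hBpos h hh), norm_mul, norm_conj]
      have hb' := hb u
      have hBb : B h ^ (-σ) ≤ B₀ ^ (-σ) :=
        Real.rpow_le_rpow_of_nonpos hB₀ (hB h hh) (by linarith)
      have hxy : ‖X h (-(2 * Real.pi * u))‖ * ‖X h (2 * Real.pi * u)‖ ≤
          1 / 2 * ‖X h (-(2 * Real.pi * u))‖ ^ 2 + 1 / 2 * ‖X h (2 * Real.pi * u)‖ ^ 2 := by
        nlinarith [sq_nonneg (‖X h (-(2 * Real.pi * u))‖ - ‖X h (2 * Real.pi * u)‖)]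
      have hBn : 0 ≤ B h ^ (-σ) := by have := hBpos h hh; positivity
      gcongr
    calc ∑ h ∈ H, ‖F h u‖ ≤ ∑ h ∈ H, C * (1 + u ^ 2)⁻¹ * (B₀ ^ (-σ) *
        (1 / 2 * ‖X h (-(2 * Real.pi * u))‖ ^ 2 + 1 / 2 * ‖X h (2 * Real.pi * u)‖ ^ 2)) :=
          Finset.sum_le_sum h1
      _ = C * (1 + u ^ 2)⁻¹ * (B₀ ^ (-σ) * (1 / 2 * ∑ h ∈ H, ‖X h (-(2 * Real.pi * u))‖ ^ 2 +
          1 / 2 * ∑ h ∈ H, ‖X h (2 * Real.pi * u)‖ ^ 2)) := by
        rw [← Finset.mul_sum, ← Finset.mul_sum, Finset.sum_add_distrib, ← Finset.mul_sum,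
          ← Finset.mul_sum]
      _ ≤ C * (1 + u ^ 2)⁻¹ * (B₀ ^ (-σ) * W) := by
        have h2 := hW (-(2 * Real.pi * u))
        have h3 := hW (2 * Real.pi * u)
        simp only [hX]
        gcongr
        linarith
  calc ∑ h ∈ H, ‖∑ s ∈ S, ∑ t ∈ S, z s h * conj (z t h) *
        ((G (B h / (ν s * ν t)) : ℝ) : ℂ)‖ = ∑ h ∈ H, ‖∫ u, F h u‖ :=
        Finset.sum_congr rfl fun h hh => by rw [hFint h hh]
    _ ≤ ∑ h ∈ H, ∫ u, ‖F h u‖ := Finset.sum_le_sum fun h _ => norm_integral_le_integral_norm _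
    _ = ∫ u, ∑ h ∈ H, ‖F h u‖ := (integral_finsetSum _ fun h hh => (hFi h hh).norm).symm
    _ ≤ ∫ u : ℝ, C * (1 + u ^ 2)⁻¹ * (B₀ ^ (-σ) * W) := by
        refine integral_mono (integrable_finsetSum _ fun h hh => (hFi h hh).norm)
          ((integrable_inv_one_add_sq.const_mul C).mul_const _) hFn
    _ = C * Real.pi * B₀ ^ (-σ) * W := by
        rw [integral_mul_const, integral_const_mul, integral_univ_inv_one_add_sq]
        ring


/-- The large sieve inequality with constant `B`: squarefree arguments of norm at most `X`, moduli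
of norm at most `Y`. -/
def LSq (χ : M → M → ℂ) (X Y B : ℝ) : Prop :=
  ∀ (T S : Finset M) (c : M → ℂ), (∀ n ∈ T, Sq n ∧ (N n : ℝ) ≤ Y) →
    (∀ v ∈ S, Squarefree v ∧ (N v : ℝ) ≤ X) →
    ∑ v ∈ S, ‖∑ n ∈ T, c n * χ n v‖ ^ 2 ≤ B * ∑ n ∈ T, ‖c n‖ ^ 2

theorem LSq.mono {χ : M → M → ℂ} {X Y B B' : ℝ} (h : LSq χ X Y B) (hB : B ≤ B') :
    LSq χ X Y B' := fun T S c hT hS => (h T S c hT hS).trans (by gcongr)

theorem LSq.mono_left {χ : M → M → ℂ} {X X' Y B : ℝ} (h : LSq χ X' Y B) (hX : X ≤ X') :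
    LSq χ X Y B := fun T S c hT hS => h T S c hT fun v hv => ⟨(hS v hv).1, (hS v hv).2.trans hX⟩

/-- the same for an injective family of moduli -/
theorem LSq.inj {χ : M → M → ℂ} {X Y B : ℝ} (h : LSq χ X Y B) (T S : Finset M) (t : M → M)
    (ht : Set.InjOn t T) (c : M → ℂ) (hT : ∀ k ∈ T, Sq (t k) ∧ (N (t k) : ℝ) ≤ Y)
    (hS : ∀ v ∈ S, Squarefree v ∧ (N v : ℝ) ≤ X) :
    ∑ v ∈ S, ‖∑ k ∈ T, c k * χ (t k) v‖ ^ 2 ≤ B * ∑ k ∈ T, ‖c k‖ ^ 2 := by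
  classical
  have h1 := h (T.image t) S (fun n => c (Function.invFunOn t T n)) (fun n hn => by
    obtain ⟨k, hk, rfl⟩ := Finset.mem_image.1 hn
    exact hT k hk) hS
  have e : ∀ k ∈ T, Function.invFunOn t T (t k) = k := fun k hk => ht.leftInvOn_invFunOn hk
  rw [Finset.sum_image ht] at h1
  simp only [Finset.sum_image ht] at h1
  have e1 : ∑ k ∈ T, ‖c (Function.invFunOn t T (t k))‖ ^ 2 = ∑ k ∈ T, ‖c k‖ ^ 2 :=
    Finset.sum_congr rfl fun k hk => by rw [e k hk]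
  have e2 : ∀ v, ∑ k ∈ T, c (Function.invFunOn t T (t k)) * χ (t k) v =
      ∑ k ∈ T, c k * χ (t k) v := fun v => Finset.sum_congr rfl fun k hk => by rw [e k hk]
  simp only [e1, e2] at h1
  exact h1

/-- separation of variables for `sv2`, combined with the large sieve -/
theorem sep2 (χ : M → M → ℂ) {G : ℝ → ℝ} {σ : ℝ} (hσ : 0 < σ) (hG : MelRep G σ) :
    ∃ C : ℝ, 0 < C ∧ ∀ (T S : Finset M) (t : M → M) (y : M → ℂ) (ν β : M → ℝ) (δ : M)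
      (X Y B β₀ τ W : ℝ), LSq χ X Y B → 0 ≤ B → Set.InjOn t T →
      (∀ k ∈ T, Sq (t k) ∧ (N (t k) : ℝ) ≤ Y) → (∀ v ∈ S, Squarefree v ∧ (N v : ℝ) ≤ X) →
      δ ≠ 0 → (∀ k ∈ T, 0 < ν k) → 0 < β₀ → (∀ v ∈ S, β₀ ≤ β v) →
      (∀ k ∈ T, ((D (t k)).card : ℝ) ≤ τ) → ∑ k ∈ T, ‖y k‖ ^ 2 * ν k ^ (2 * σ) ≤ W →
      ∑ v ∈ S, ‖∑ k ∈ T, ∑ l ∈ T, (y k * χ (t k) v) * conj (y l * χ (t l) v) *
        sv2 G δ (t k) (t l) (β v / (ν k * ν l))‖ ≤
        C * ((D δ).card * (β₀ ^ (-σ) * (τ ^ 2 * (B * W)))) := by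
  obtain ⟨C, hC, hsep⟩ := sepF hσ hG
  refine ⟨C, hC, ?_⟩
  intro T S t y ν β δ X Y B β₀ τ W hLS hB ht hT hS hδ hν hβ₀ hβ hτ hW
  classical
  set I : Finset (Σ _ : M, M) := T.sigma fun k => D (t k) with hI
  set z : (Σ _ : M, M) → M → ℂ := fun p v => y p.1 * χ (t p.1) v * mob p.2 with hz
  set ν' : (Σ _ : M, M) → ℝ := fun p => ν p.1 / (N p.2 : ℝ) ^ 2 with hν'
  have hNd : ∀ k ∈ T, ∀ d ∈ D (t k), (1 : ℝ) ≤ N d := by
    intro k hk d hd
    rw [mem_D (hT k hk).1.ne_zero] at hd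
    exact_mod_cast hd.1.N_pos
  have hν'0 : ∀ p ∈ I, 0 < ν' p := by
    intro p hp
    rw [hI, Finset.mem_sigma] at hp
    have := hν _ hp.1
    have := hNd _ hp.1 _ hp.2
    simp only [hν']
    positivity
  -- the mean square hypothesis
  have hW' : ∀ u : ℝ, ∑ v ∈ S, ‖∑ p ∈ I, z p v * (ν' p : ℂ) ^ ((σ : ℂ) + u * Complex.I)‖ ^ 2 ≤
      τ ^ 2 * (B * W) := by
    intro u
    set x : M → ℂ := fun k => y k * ∑ d ∈ D (t k), mob d *
      ((ν k / (N d : ℝ) ^ 2 : ℝ) : ℂ) ^ ((σ : ℂ) + u * Complex.I) with hx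
    have e1 : ∀ v, ∑ p ∈ I, z p v * (ν' p : ℂ) ^ ((σ : ℂ) + u * Complex.I) =
        ∑ k ∈ T, x k * χ (t k) v := by
      intro v
      rw [hI, Finset.sum_sigma]
      refine Finset.sum_congr rfl fun k _ => ?_
      simp only [hx, hz, hν']
      rw [Finset.mul_sum, Finset.sum_mul]
      refine Finset.sum_congr rfl fun d _ => ?_
      ring
    simp only [e1]
    refine (hLS.inj T S t ht x hT hS).trans ?_
    have e2 : ∀ k ∈ T, ‖x k‖ ^ 2 ≤ τ ^ 2 * (‖y k‖ ^ 2 * ν k ^ (2 * σ)) := by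
      intro k hk
      have pk := hν k hk
      have h1 : ‖∑ d ∈ D (t k), mob d *
          ((ν k / (N d : ℝ) ^ 2 : ℝ) : ℂ) ^ ((σ : ℂ) + u * Complex.I)‖ ≤ τ * ν k ^ σ := by
        refine (norm_sum_le _ _).trans ?_
        calc ∑ d ∈ D (t k), ‖mob d *
              ((ν k / (N d : ℝ) ^ 2 : ℝ) : ℂ) ^ ((σ : ℂ) + u * Complex.I)‖
            ≤ ∑ d ∈ D (t k), ν k ^ σ := by
              refine Finset.sum_le_sum fun d hd => ?_
              have pd := hNd k hk d hd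
              rw [norm_mul, norm_mob, one_mul, norm_cpow_eq_rpow_re_of_pos (by positivity)]
              have e3 : ((σ : ℂ) + u * Complex.I).re = σ := by simp
              rw [e3]
              refine Real.rpow_le_rpow (by positivity) ?_ hσ.le
              exact div_le_self pk.le (one_le_pow₀ pd)
          _ = (D (t k)).card * ν k ^ σ := by rw [Finset.sum_const, nsmul_eq_mul]
          _ ≤ τ * ν k ^ σ := by
              have := hτ k hk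
              gcongr
      have e4 : ν k ^ (2 * σ) = (ν k ^ σ) ^ 2 := by
        rw [mul_comm, Real.rpow_mul pk.le]; norm_num
      simp only [hx]
      rw [norm_mul, mul_pow, e4]
      calc ‖y k‖ ^ 2 * ‖∑ d ∈ D (t k), mob d *
              ((ν k / (N d : ℝ) ^ 2 : ℝ) : ℂ) ^ ((σ : ℂ) + u * Complex.I)‖ ^ 2
          ≤ ‖y k‖ ^ 2 * (τ * ν k ^ σ) ^ 2 := by gcongr
        _ = _ := by ring
    calc B * ∑ k ∈ T, ‖x k‖ ^ 2 ≤ B * ∑ k ∈ T, τ ^ 2 * (‖y k‖ ^ 2 * ν k ^ (2 * σ)) := by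
          gcongr with k hk
          exact e2 k hk
      _ = B * (τ ^ 2 * ∑ k ∈ T, ‖y k‖ ^ 2 * ν k ^ (2 * σ)) := by rw [← Finset.mul_sum]
      _ ≤ B * (τ ^ 2 * W) := by gcongr
      _ = _ := by ring
  -- expansion of `sv2`
  have e5 : ∀ v ∈ S, ∑ k ∈ T, ∑ l ∈ T, (y k * χ (t k) v) * conj (y l * χ (t l) v) *
        sv2 G δ (t k) (t l) (β v / (ν k * ν l)) =
      ∑ d₀ ∈ D δ, mob d₀ * ∑ p ∈ I, ∑ r ∈ I, z p v * conj (z r v) *
        ((G ((N d₀ : ℝ) ^ 2 * β v / (ν' p * ν' r)) : ℝ) : ℂ) := by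
    intro v _
    have e6 : ∀ k ∈ T, ∀ l ∈ T, (y k * χ (t k) v) * conj (y l * χ (t l) v) *
        sv2 G δ (t k) (t l) (β v / (ν k * ν l)) =
        ∑ d₀ ∈ D δ, mob d₀ * ∑ d₁ ∈ D (t k), ∑ d₂ ∈ D (t l), z ⟨k, d₁⟩ v * conj (z ⟨l, d₂⟩ v) *
          ((G ((N d₀ : ℝ) ^ 2 * β v / (ν' ⟨k, d₁⟩ * ν' ⟨l, d₂⟩)) : ℝ) : ℂ) := by
      intro k hk l hl
      rw [sv2, Finset.mul_sum]
      refine Finset.sum_congr rfl fun d₀ _ => ?_
      rw [mul_left_comm]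
      congr 1
      rw [Finset.mul_sum]
      refine Finset.sum_congr rfl fun d₁ h₁ => ?_
      rw [Finset.mul_sum]
      refine Finset.sum_congr rfl fun d₂ h₂ => ?_
      have p1 := hNd k hk d₁ h₁
      have p2 := hNd l hl d₂ h₂
      have pk := hν k hk
      have pl := hν l hl
      have e7 : (N d₀ : ℝ) ^ 2 * β v / (ν' ⟨k, d₁⟩ * ν' ⟨l, d₂⟩) =
          (N d₀ : ℝ) ^ 2 * ((N d₁ : ℝ) ^ 2 * (N d₂ : ℝ) ^ 2 * (β v / (ν k * ν l))) := by
        simp only [hν']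
        field_simp
      rw [e7]
      simp only [hz, map_mul, conj_mob]
      ring
    rw [Finset.sum_congr rfl fun k hk => Finset.sum_congr rfl fun l hl => e6 k hk l hl]
    calc ∑ k ∈ T, ∑ l ∈ T, ∑ d₀ ∈ D δ, mob d₀ * ∑ d₁ ∈ D (t k), ∑ d₂ ∈ D (t l),
          z ⟨k, d₁⟩ v * conj (z ⟨l, d₂⟩ v) *
          ((G ((N d₀ : ℝ) ^ 2 * β v / (ν' ⟨k, d₁⟩ * ν' ⟨l, d₂⟩)) : ℝ) : ℂ)
        = ∑ k ∈ T, ∑ d₀ ∈ D δ, ∑ l ∈ T, mob d₀ * ∑ d₁ ∈ D (t k), ∑ d₂ ∈ D (t l),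
          z ⟨k, d₁⟩ v * conj (z ⟨l, d₂⟩ v) *
          ((G ((N d₀ : ℝ) ^ 2 * β v / (ν' ⟨k, d₁⟩ * ν' ⟨l, d₂⟩)) : ℝ) : ℂ) :=
          Finset.sum_congr rfl fun k _ => Finset.sum_comm
      _ = ∑ d₀ ∈ D δ, ∑ k ∈ T, ∑ l ∈ T, mob d₀ * ∑ d₁ ∈ D (t k), ∑ d₂ ∈ D (t l),
          z ⟨k, d₁⟩ v * conj (z ⟨l, d₂⟩ v) *
          ((G ((N d₀ : ℝ) ^ 2 * β v / (ν' ⟨k, d₁⟩ * ν' ⟨l, d₂⟩)) : ℝ) : ℂ) := Finset.sum_comm
      _ = _ := by
          refine Finset.sum_congr rfl fun d₀ _ => ?_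
          rw [hI, Finset.sum_sigma, Finset.mul_sum]
          refine Finset.sum_congr rfl fun k _ => ?_
          rw [← Finset.mul_sum]
          congr 1
          rw [Finset.sum_comm]
          refine Finset.sum_congr rfl fun d₁ _ => ?_
          rw [Finset.sum_sigma]
  rw [Finset.sum_congr rfl fun v hv => by rw [e5 v hv]]
  calc ∑ v ∈ S, ‖∑ d₀ ∈ D δ, mob d₀ * ∑ p ∈ I, ∑ r ∈ I, z p v * conj (z r v) *
        ((G ((N d₀ : ℝ) ^ 2 * β v / (ν' p * ν' r)) : ℝ) : ℂ)‖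
      ≤ ∑ v ∈ S, ∑ d₀ ∈ D δ, ‖∑ p ∈ I, ∑ r ∈ I, z p v * conj (z r v) *
        ((G ((N d₀ : ℝ) ^ 2 * β v / (ν' p * ν' r)) : ℝ) : ℂ)‖ := by
        refine Finset.sum_le_sum fun v _ => (norm_sum_le _ _).trans (le_of_eq ?_)
        refine Finset.sum_congr rfl fun d₀ _ => ?_
        rw [norm_mul, norm_mob, one_mul]
    _ = ∑ d₀ ∈ D δ, ∑ v ∈ S, ‖∑ p ∈ I, ∑ r ∈ I, z p v * conj (z r v) *
        ((G ((N d₀ : ℝ) ^ 2 * β v / (ν' p * ν' r)) : ℝ) : ℂ)‖ := Finset.sum_comm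
    _ ≤ ∑ d₀ ∈ D δ, C * β₀ ^ (-σ) * (τ ^ 2 * (B * W)) := by
        refine Finset.sum_le_sum fun d₀ h₀ => ?_
        rw [mem_D hδ] at h₀
        have p0 : (1 : ℝ) ≤ N d₀ := by exact_mod_cast h₀.1.N_pos
        refine hsep I S z ν' (fun v => (N d₀ : ℝ) ^ 2 * β v) β₀ _ hν'0 hβ₀ (fun v hv => ?_) hW'
        have h1 := hβ v hv
        have h2 : (1 : ℝ) ≤ (N d₀ : ℝ) ^ 2 := one_le_pow₀ p0
        nlinarith
    _ = _ := by rw [Finset.sum_const, nsmul_eq_mul]; ring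

end Vale.Agent.P016Z.QLS
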