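import Vale.Agent.P016Z.QLS.Basic

/-!
P016, block QLS: sums over `u` of `Th (s N(u)²)` with coprimality and divisibility conditions;
Poisson summation for the quadratic symbol.
-/

namespace Vale.Agent.P016Z.QLS

open Vale.Agent.P016Z.Ab
open Finset
open scoped Classical

set_option linter.unusedSectionVars false

variable {M : Type} [CommMonoidWithZero M] [UniqueFactorizationMonoid M] [Ar M] [Rad M]

/-- a normalising constant -/
def b0 : ℝ := 1

theorem b0_pos : 0 < b0 := one_pos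

/-- `Th (s N(u)²)` -/
noncomputable def ex (s : ℝ) (u : M) : ℂ := ((Rad.Th M (s * (N u : ℝ) ^ 2) : ℝ) : ℂ)

/-- the radial weight -/
noncomputable def gc (A : ℝ) (x : M) : ℂ := ((gr A x : ℝ) : ℂ)

/-- `∑_{d ∣ m} μ(d) F(N(d)² s)` -/
noncomputable def sv (F : ℝ → ℝ) (m : M) (s : ℝ) : ℂ :=
  ∑ d ∈ D m, mob d * (F ((N d : ℝ) ^ 2 * s) : ℂ)

theorem summable_gc {A : ℝ} (hA : 0 < A) {ψ : M → ℂ} (hψ : ∀ x, ‖ψ x‖ ≤ 1) :
    Summable fun x : M => ψ x * gc A x := by
  have h := Ab.summable_gw (O := M) (show Gr M from (⟨A, hA⟩ : Pos)) hψ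
  simp only [gw_eq_gr] at h
  exact h

theorem gc_zero (A : ℝ) : gc A (0 : M) = 1 := by simp [gc, gr]

theorem gr_of_ne (A : ℝ) {x : M} (hx : x ≠ 0) : gr A x = Rad.Th M (N x / A) := if_neg hx

theorem gr_nonneg {A : ℝ} (hA : 0 < A) (x : M) : 0 ≤ gr A x := by
  by_cases hx : x = 0
  · simp [gr, hx]
  · rw [gr_of_ne A hx]
    exact Rad.Th_nonneg _ (div_pos (N_pos' hx) hA)

variable (M) in
theorem Th_le' {σ : ℝ} (hσ : 0 < σ) :
    ∃ C : ℝ, 0 ≤ C ∧ ∀ x : ℝ, 0 < x → Rad.Th M x ≤ C * x ^ (-σ) := by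
  obtain ⟨C, hC, h⟩ := Th_le M hσ
  exact ⟨C, hC, fun x hx => h (show Gr M from (⟨x, hx⟩ : Pos))⟩

theorem summable_ex {s : ℝ} (hs : 0 < s) {ψ : M → ℂ} (hψ : ∀ x, ‖ψ x‖ ≤ 1) :
    Summable fun x : M => ψ x * ex s x := by
  obtain ⟨C, hC, h⟩ := Th_le' M one_pos
  have h1 := ((summable_N_rpow (M := M) one_lt_two).mul_left (C * s⁻¹)).add
    (hasSum_ite_eq (0 : M) ‖ex s (0 : M)‖).summable
  refine Summable.of_norm_bounded h1 fun x => ?_
  rw [norm_mul]
  refine (mul_le_of_le_one_left (norm_nonneg _) (hψ x)).trans ?_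
  by_cases hx : x = 0
  · rw [hx, if_pos rfl]
    have : 0 ≤ C * s⁻¹ * (N (0 : M) : ℝ) ^ (-2 : ℝ) := by positivity
    linarith
  · have px := N_pos' hx
    rw [if_neg hx, add_zero, ex, Complex.norm_real,
      Real.norm_of_nonneg (Rad.Th_nonneg _ (by positivity))]
    refine (h _ (by positivity)).trans (le_of_eq ?_)
    rw [Real.rpow_neg_one, Real.rpow_neg px.le, Real.rpow_two, mul_inv, mul_assoc]

theorem th_eq (s : ℝ) : (thq M s : ℂ) = ∑' u : M, if u = 0 then 0 else ex s u := by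
  rw [thq, Complex.ofReal_tsum]
  refine tsum_congr fun u => ?_
  split_ifs
  · simp
  · rfl

theorem tsum_dvd_eq {g : M} (hg : g ≠ 0) (f : M → ℂ) :
    (∑' u : M, if g ∣ u then f u else 0) = ∑' x : M, f (g * x) := by
  have hinj : Function.Injective fun x : M => g * x := mul_right_injective₀ hg
  rw [← hinj.tsum_eq (f := fun u => if g ∣ u then f u else 0)]
  · exact tsum_congr fun x => if_pos (dvd_mul_right g x)
  · intro n hn
    rw [Function.mem_support] at hn
    by_contra hne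
    apply hn
    rw [if_neg]
    rintro ⟨x, rfl⟩
    exact hne ⟨x, rfl⟩

theorem ex_mul (s : ℝ) (g x : M) : ex s (g * x) = ex ((N g : ℝ) ^ 2 * s) x := by
  rw [ex, ex, N_mul']
  congr 2
  ring

theorem tsum_cop_ex {s : ℝ} (hs : 0 < s) {m : M} (hm : Prim m) (sm : Squarefree m) :
    (∑' x : M, if x = 0 then 0 else cop m x * ex s x) = sv (thq M) m s := by
  have h1 : ∀ x : M, (if x = 0 then 0 else cop m x * ex s x) =
      ∑ d ∈ D m, if d ∣ x then mob d * (if x = 0 then 0 else ex s x) else 0 := by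
    intro x
    rw [cop_eq_sum hm sm]
    split_ifs
    · simp
    · rw [sum_mul]
      refine sum_congr rfl fun d _ => ?_
      split_ifs <;> simp
  rw [tsum_congr h1, Summable.tsum_finsetSum, sv]
  · refine sum_congr rfl fun d hd => ?_
    rw [mem_D hm.ne_zero] at hd
    rw [tsum_dvd_eq hd.1.ne_zero, tsum_mul_left, th_eq]
    congr 1
    refine tsum_congr fun x => ?_
    simp only [mul_eq_zero, hd.1.ne_zero, false_or, ex_mul]
  · intro d _
    refine Summable.of_norm_bounded (summable_ex hs (ψ := fun _ => 1) (by simp)).norm fun x => ?_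
    rw [one_mul]
    split_ifs
    · simp
    · rw [norm_mul, norm_mob, one_mul]
    · simp

theorem tsum_dvd_cop_ex {s : ℝ} (hs : 0 < s) {m g : M} (hm : Prim m) (sm : Squarefree m)
    (hg : g ≠ 0) (hgm : IsRelPrime g m) :
    (∑' u : M, if g ∣ u then (if u = 0 then 0 else cop m u * ex s u) else 0) =
      sv (thq M) m ((N g : ℝ) ^ 2 * s) := by
  have pg : (0 : ℝ) < N g := by exact_mod_cast Ab.N_pos hg
  rw [tsum_dvd_eq hg, ← tsum_cop_ex (by positivity) hm sm]
  refine tsum_congr fun x => ?_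
  simp only [mul_eq_zero, hg, false_or, ex_mul, cop_mul hgm]

theorem gc_sq (A : ℝ) {v u : M} (hv : v ≠ 0) (hu : u ≠ 0) :
    gc A (v * u ^ 2) = ex (b0 * N v / A) u := by
  rw [gc, ex, gr_of_ne A (mul_ne_zero hv (pow_ne_zero 2 hu)), N_mul, N_pow, b0]
  congr 2
  push_cast
  ring

theorem gc_mul {A : ℝ} (d x : M) (hd : d ≠ 0) : gc A (d * x) = gc (A / N d) x := by
  by_cases hx : x = 0
  · rw [hx, mul_zero, gc_zero, gc_zero]
  · rw [gc, gc, gr_of_ne _ (mul_ne_zero hd hx), gr_of_ne _ hx, N_mul', div_div_eq_mul_div,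
      mul_comm (N d : ℝ)]

theorem summable_th_sq {c : ℝ} (hc : 0 < c) :
    Summable fun v : M => if Squarefree v then ((thq M) (c * N v) : ℂ) else 0 := by
  have hb := b0_pos
  have h1 := (hasSum_pr (summable_gc (A := b0 / c) (by positivity) (ψ := fun _ : M => 1)
    (by simp))).summable.prod
  refine h1.congr fun v => ?_
  by_cases hv : Squarefree v
  · rw [if_pos hv, th_eq]
    refine tsum_congr fun u => ?_
    rw [pr]
    by_cases hu : u = 0
    · simp [hu]
    · rw [if_pos ⟨hv, hu⟩, if_neg hu, one_mul, gc_sq _ hv.ne_zero hu]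
      congr 1
      field_simp
  · rw [if_neg hv]
    have : ∀ u : M, pr (fun x => 1 * gc (b0 / c) x) (v, u) = 0 := fun u => by
      rw [pr, if_neg fun h => hv h.1]
    rw [tsum_congr this, tsum_zero]

end Vale.Agent.P016Z.QLS

namespace Vale.Agent.P016Z.Ab.QSym

open Vale.Agent.P016Z.QLS Finset
open scoped Classical ComplexConjugate

set_option linter.unusedSectionVars false

variable {M : Type} [CommMonoidWithZero M] [UniqueFactorizationMonoid M] [Ar M] [Rad M]

variable {χ : M → M → ℂ} (hχ : QSym χ)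

include hχ

theorem norm_le {n : M} (hn : Sq n) (x : M) : ‖χ n x‖ ≤ 1 := by
  have h1 := congrArg norm (hχ.sq n x hn)
  rw [norm_mul] at h1
  have h2 := norm_cop_le n x
  nlinarith [norm_nonneg (χ n x)]

theorem conj_eq {n : M} (hn : Sq n) (x : M) : (starRingEnd ℂ) (χ n x) = χ n x := by
  have h1 := hχ.sq n x hn
  unfold cop at h1
  split_ifs at h1
  · rcases mul_self_eq_one_iff.1 h1 with h | h <;> simp [h]
  · rw [mul_self_eq_zero.1 h1, map_zero]

theorem at_sq {n : M} (hn : Sq n) (v u : M) : χ n (v * u ^ 2) = χ n v * cop n u := by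
  rw [hχ.mul_right _ _ _ hn, pow_two, hχ.mul_right _ _ _ hn, hχ.sq _ _ hn]

theorem at_zero {n : M} (hn : Sq n) (h1 : n ≠ 1) : χ n 0 = 0 := by
  have h := hχ.sq n 0 hn
  rw [cop, if_neg] at h
  · exact mul_self_eq_zero.1 h
  · intro h2
    exact h1 (hn.prim.eq_one_of_isUnit (isRelPrime_zero_left.1 h2))

/-- **Poisson summation** for the quadratic symbol: root number one. -/
theorem poisson {a b : M} (ha : Sq a) (hb : Sq b) (hab : IsRelPrime a b) (h4 : cm a = cm b)
    {A : ℝ} (hA : 0 < A) :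
    ∑' x : M, χ (a * b) x * gc A x = ((A / Real.sqrt (N (a * b)) : ℝ) : ℂ) *
      ∑' h : M, χ (a * b) h * gc (N (a * b) / A) h := hχ.pois a b A ha hb hab h4 hA

/-- Poisson summation with a coprimality condition -/
theorem poisson_cop {δ a b : M} (hδ : Sq δ) (ha : Sq a) (hb : Sq b) (hab : IsRelPrime a b)
    (h4 : cm a = cm b) {A : ℝ} (hA : 0 < A) :
    ∑' x : M, cop δ x * χ (a * b) x * gc A x =
      ∑ d ∈ D δ, mob d * ((A / N d / Real.sqrt (N (a * b)) : ℝ) : ℂ) *
        ∑' y : M, if d ∣ y then χ (a * b) y * gc ((N d : ℝ) ^ 2 * N (a * b) / A) y else 0 := by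
  have hq := ha.mul hb hab
  have h1 : ∀ x : M, cop δ x * χ (a * b) x * gc A x =
      ∑ d ∈ D δ, if d ∣ x then mob d * (χ (a * b) x * gc A x) else 0 := by
    intro x
    rw [cop_eq_sum hδ.prim hδ.2, mul_assoc, sum_mul]
    refine sum_congr rfl fun d _ => ?_
    split_ifs <;> simp
  rw [tsum_congr h1, Summable.tsum_finsetSum]
  · refine sum_congr rfl fun d hd => ?_
    rw [mem_D hδ.ne_zero] at hd
    have hd0 := hd.1.ne_zero
    have pd : (0 : ℝ) < N d := by exact_mod_cast hd.1.N_pos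
    rw [tsum_dvd_eq hd0, tsum_dvd_eq hd0]
    have e1 : ∀ x : M, mob d * (χ (a * b) (d * x) * gc A (d * x)) =
        (mob d * χ (a * b) d) * (χ (a * b) x * gc (A / N d) x) := by
      intro x
      rw [hχ.mul_right _ _ _ hq, gc_mul d x hd0]; ring
    have e2 : ∀ x : M, χ (a * b) (d * x) * gc ((N d : ℝ) ^ 2 * N (a * b) / A) (d * x) =
        χ (a * b) d * (χ (a * b) x * gc (N (a * b) / (A / N d)) x) := by
      intro x
      rw [hχ.mul_right _ _ _ hq, gc_mul d x hd0]
      have : (N d : ℝ) ^ 2 * N (a * b) / A / N d = N (a * b) / (A / N d) := by field_simp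
      rw [this]; ring
    rw [tsum_congr e1, tsum_congr e2, tsum_mul_left, tsum_mul_left,
      hχ.poisson ha hb hab h4 (by positivity)]
    ring
  · intro d _
    refine Summable.of_norm_bounded (summable_gc hA (hχ.norm_le hq)).norm fun x => ?_
    split_ifs
    · rw [norm_mul, norm_mob, one_mul]
    · rw [norm_zero]; exact norm_nonneg _

/-- the sum over `u` on the side of the arguments -/
theorem tsum_primal {δ q : M} (hδ : Sq δ) (hq : Sq q) (hc : IsRelPrime δ q) {A : ℝ} (hA : 0 < A)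
    (v : M) :
    ∑' u : M, pr (fun x => cop δ x * χ q x * gc A x) (v, u) =
      if Squarefree v then cop δ v * χ q v * sv (thq M) (δ * q) (b0 * N v / A) else 0 := by
  have hb := b0_pos
  have hm := hδ.mul hq hc
  split_ifs with hv
  · have pv : (0 : ℝ) < N v := by exact_mod_cast Ab.N_pos hv.ne_zero
    rw [← tsum_cop_ex (by positivity) hm.prim hm.2, ← tsum_mul_left]
    refine tsum_congr fun u => ?_
    rw [pr]
    by_cases hu : u = 0
    · simp [hu]
    · rw [if_pos ⟨hv, hu⟩, if_neg hu]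
      simp only
      rw [gc_sq _ hv.ne_zero hu, hχ.at_sq hq, cop_mul_right, pow_two, cop_mul_right, cop_sq, cop_mul_left]
      ring
  · have : ∀ u : M, pr (fun x => cop δ x * χ q x * gc A x) (v, u) = 0 := fun u => by
      rw [pr, if_neg fun h => hv h.1]
    simp [this]

/-- the sum over `u` on the dual side -/
theorem tsum_dual {d g q v : M} (hq : Sq q) (hg : g ≠ 0) (sdg : Squarefree (d * g))
    (hgq : IsRelPrime g q) (hdv : d ∣ v) (hgv : IsRelPrime g v) (hv : Squarefree v) {B : ℝ}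
    (hB : 0 < B) :
    ∑' u : M, pr (fun y => if d * g ∣ y then χ q y * gc B y else 0) (v, u) =
      χ q v * sv (thq M) q ((N g : ℝ) ^ 2 * (b0 * N v / B)) := by
  have hb := b0_pos
  have pv : (0 : ℝ) < N v := by exact_mod_cast Ab.N_pos hv.ne_zero
  rw [← tsum_dvd_cop_ex (by positivity) hq.prim hq.2 hg hgq, ← tsum_mul_left]
  refine tsum_congr fun u => ?_
  rw [pr]
  by_cases hu : u = 0
  · simp [hu]
  · rw [if_pos ⟨hv, hu⟩, if_neg hu]
    simp only
    have h1 : d * g ∣ v * u ^ 2 ↔ g ∣ u := by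
      constructor
      · intro h
        have h2 : g ∣ v * u ^ 2 := (Dvd.intro_left d rfl).trans h
        have h3 : g ∣ u ^ 2 := hgv.dvd_of_dvd_mul_left h2
        exact (sdg.of_mul_right.dvd_pow_iff_dvd (by norm_num)).1 h3
      · intro h
        exact mul_dvd_mul hdv (h.trans (dvd_pow_self u (by norm_num)))
    by_cases h2 : g ∣ u
    · rw [if_pos (h1.2 h2), if_pos h2, gc_sq _ hv.ne_zero hu, hχ.at_sq hq]; ring
    · rw [if_neg (fun h => h2 (h1.1 h)), if_neg h2, mul_zero]

end Vale.Agent.P016Z.Ab.QSym
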